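import Vale.Agent.P074.H20.Pot

open MeasureTheory Set Metric Filter
open scoped ENNReal NNReal RealInnerProductSpace Topology

namespace Vale.Agent.P074.H20

variable {d : ℕ}

/-- The gradient inequality for a convex function. -/
theorem grad_ineq {K : Set (E d)} {u : E d → ℝ} (hu : ConvexOn ℝ K u) {x z g : E d}
    (hx : x ∈ K) (hz : z ∈ K) (hg : HasGradientAt u g x) : u x + ⟪g, z - x⟫ ≤ u z := by
  have h1 : HasDerivAt (fun t : ℝ => u (x + t • (z - x))) ⟪g, z - x⟫ 0 := by
    have h2 : HasDerivAt (fun t : ℝ => x + t • (z - x)) (z - x) 0 := by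
      have := ((hasDerivAt_id (0 : ℝ)).smul_const (z - x)).const_add x
      simpa using this
    have h3 : HasFDerivAt u (InnerProductSpace.toDual ℝ (E d) g)
        ((fun t : ℝ => x + t • (z - x)) 0) := by
      simpa using hg.hasFDerivAt
    have h9 := h3.comp_hasDerivAt (0 : ℝ) h2
    rw [InnerProductSpace.toDual_apply_apply] at h9
    exact h9
  have h4 := h1.tendsto_slope_zero_right
  have h5 : ∀ᶠ t : ℝ in 𝓝[>] 0, t⁻¹ • (u (x + (0 + t) • (z - x)) - u (x + (0 : ℝ) • (z - x))) ≤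
      u z - u x := by
    filter_upwards [Ioo_mem_nhdsGT (zero_lt_one' ℝ)] with t ht
    have ht0 : 0 < t := ht.1
    have ht1 : t < 1 := ht.2
    have h6 := hu.2 hx hz (by linarith : (0 : ℝ) ≤ 1 - t) ht0.le (by ring)
    have h7 : (1 - t) • x + t • z = x + (0 + t) • (z - x) := by
      rw [zero_add, smul_sub]
      module
    rw [h7, smul_eq_mul, smul_eq_mul] at h6
    rw [zero_smul, add_zero, smul_eq_mul, inv_mul_le_iff₀ ht0]
    linarith only [h6]
  have h8 := le_of_tendsto h4 h5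
  linarith only [h8]

/-- A convex function on `K` with bounded gradient comes from a Lipschitz dual potential. -/
theorem exists_dual_of_convex {K : Set (E d)} (hK : IsCompact K)
    (hKi : (interior K).Nonempty) {R M : ℝ} (hM : 0 ≤ M)
    (hKR : K ⊆ closedBall 0 R) {u : E d → ℝ} (hu : ConvexOn ℝ K u)
    {T : E d → E d} (hg : ∀ᵐ x ∂(unif K), HasGradientAt u (T x) x)
    (hTM : ∀ᵐ x ∂(unif K), T x ∈ closedBall (0 : E d) M) :
    ∃ ψ : E d → ℝ, LipschitzWith R.toNNReal ψ ∧ (∀ᵐ x ∂(unif K), conj M ψ x = u x) ∧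
      ∀ᵐ x ∂(unif K), conj M ψ x + ψ (T x) = ⟪x, T x⟫ := by
  have hprob := Final.unif_prob hK hKi
  have hmem := Final.ae_mem_unif hK
  obtain ⟨x0, hx0K, hx0g⟩ := (hmem.and hg).exists
  have hne : Nonempty K := ⟨⟨x0, hx0K⟩⟩
  -- lower bound for `u`
  have hlow : ∀ z ∈ K, u x0 - ‖T x0‖ * (R + R) ≤ u z := by
    intro z hz
    have h1 := grad_ineq hu hx0K hz hx0g
    have h2 : -(‖T x0‖ * ‖z - x0‖) ≤ ⟪T x0, z - x0⟫ :=
      (abs_le.1 (abs_real_inner_le_norm _ _)).1
    have h3 : ‖z - x0‖ ≤ R + R := (norm_sub_le _ _).trans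
      (add_le_add (mem_closedBall_zero_iff.1 (hKR hz)) (mem_closedBall_zero_iff.1 (hKR hx0K)))
    have h4 := mul_le_mul_of_nonneg_left h3 (norm_nonneg (T x0))
    linarith only [h1, h2, h4]
  have hbdd : ∀ y : E d, BddAbove (range fun x : K => ⟪x.1, y⟫ - u x.1) := by
    intro y
    refine ⟨R * ‖y‖ - (u x0 - ‖T x0‖ * (R + R)), ?_⟩
    rintro _ ⟨x, rfl⟩
    have h1 := hlow x.1 x.2
    have h2 : ⟪x.1, y⟫ ≤ R * ‖y‖ := (real_inner_le_norm _ _).trans
      (mul_le_mul_of_nonneg_right (mem_closedBall_zero_iff.1 (hKR x.2)) (norm_nonneg _))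
    show ⟪x.1, y⟫ - u x.1 ≤ _
    linarith only [h1, h2]
  set ψ : E d → ℝ := fun y => ⨆ x : K, (⟪x.1, y⟫ - u x.1) with hψ
  have hle : ∀ x ∈ K, ∀ y, ⟪x, y⟫ - u x ≤ ψ y := fun x hx y =>
    le_ciSup (hbdd y) (⟨x, hx⟩ : K)
  have hψL : LipschitzWith R.toNNReal ψ := by
    refine LipschitzWith.of_le_add_mul' R fun y y' => ?_
    apply ciSup_le
    intro x
    have h1 := hle x.1 x.2 y'
    have h2 : ⟪x.1, y⟫ - ⟪x.1, y'⟫ ≤ R * dist y y' := by
      rw [← inner_sub_right, dist_eq_norm]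
      exact (real_inner_le_norm _ _).trans
        (mul_le_mul_of_nonneg_right (mem_closedBall_zero_iff.1 (hKR x.2)) (norm_nonneg _))
    linarith only [h1, h2]
  have hψT : ∀ᵐ x ∂(unif K), ψ (T x) = ⟪x, T x⟫ - u x := by
    filter_upwards [hmem, hg] with x hx hgx
    apply le_antisymm
    · apply ciSup_le
      intro z
      have h1 := grad_ineq hu hx z.2 hgx
      rw [inner_sub_right, real_inner_comm z.1, real_inner_comm x] at h1
      linarith only [h1]
    · exact hle x hx _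
  have hconj : ∀ᵐ x ∂(unif K), conj M ψ x = u x := by
    filter_upwards [hmem, hψT, hTM] with x hx h1 h2
    apply le_antisymm
    · apply conj_le hM
      intro y _
      have := hle x hx y
      linarith only [this]
    · have := le_conj hψL.continuous x h2
      rw [h1] at this
      linarith only [this]
  refine ⟨ψ, hψL, hconj, ?_⟩
  filter_upwards [hconj, hψT] with x h1 h2
  rw [h1, h2]
  ring

/-- The Legendre transform is convex. -/
theorem convexOn_conj {M : ℝ} (hM : 0 ≤ M) {ψ : E d → ℝ} (hψ : Continuous ψ) :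
    ConvexOn ℝ univ (conj M ψ) := by
  refine ⟨convex_univ, fun x _ z _ a b ha hb hab => ?_⟩
  apply conj_le hM
  intro y hy
  have h1 := mul_le_mul_of_nonneg_left (le_conj hψ x hy) ha
  have h2 := mul_le_mul_of_nonneg_left (le_conj hψ z hy) hb
  rw [inner_add_left, real_inner_smul_left, real_inner_smul_left, smul_eq_mul, smul_eq_mul]
  have h3 : ψ y = a * ψ y + b * ψ y := by rw [← add_mul, hab, one_mul]
  linarith only [h1, h2, h3]

/-- The gradient of the potential is the transport map. -/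
theorem hasGradientAt_conj {K : Set (E d)} {M : ℝ} (hM : 0 ≤ M) {ψ : E d → ℝ}
    (hψ : Continuous ψ) {T : E d → E d}
    (hTM : ∀ᵐ x ∂(unif K), T x ∈ closedBall (0 : E d) M)
    (he : ∀ᵐ x ∂(unif K), conj M ψ x + ψ (T x) = ⟪x, T x⟫) :
    ∀ᵐ x ∂(unif K), HasGradientAt (conj M ψ) (T x) x := by
  have h1 : ∀ᵐ x ∂(unif K), DifferentiableAt ℝ (conj M ψ) x :=
    unif_ac.ae_le (lipschitzWith_conj hM hψ).ae_differentiableAt
  filter_upwards [h1, hTM, he] with x h1 h2 h3
  have h4 := gradient_cj (M := M) (g := fun y : closedBall (0 : E d) M => ψ y.1)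
    (hψ.comp continuous_subtype_val) (x := x) (y := ⟨T x, h2⟩)
    (by rw [← conj_eq_cj]; linarith only [h3]) h1
  have h5 := h1.hasGradientAt
  have h6 : gradient (conj M ψ) x = T x := h4
  rwa [h6] at h5

end Vale.Agent.P074.H20
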