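import Vale.Agent.P074.Defs

open MeasureTheory Set

namespace Vale.Agent.P074.H20

/-- `u` is a Brenier potential of `μ`: `u` is convex on `K` and its gradient is, almost everywhere
on `K`, a quadratic optimal transport map from the uniform probability measure on `K` to `μ`. -/
def IsPotential {d : ℕ} (K : Set (E d)) (μ : Measure (E d)) (u : E d → ℝ) : Prop :=
  ConvexOn ℝ K u ∧ ∃ T : E d → E d, IsOptimalMap (unif K) μ T ∧
    ∀ᵐ x ∂(unif K), HasGradientAt u (T x) x

end Vale.Agent.P074.H20
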