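import Vale.Agent.P074.H20.Near

open MeasureTheory Set Metric
open scoped ENNReal NNReal RealInnerProductSpace

namespace Vale.Agent.P074.H20

variable {d : ℕ}

/-- Small perturbations of the constant density. -/
theorem goodDensity {K : Set (E d)} (hK : IsCompact K) (hKi : (interior K).Nonempty)
    {f : E d → ℝ} (hf : Measurable f) (hB : ∀ x, |f x| ≤ 1 / 2)
    (hf0 : ∫ x, f x ∂(unif K) = 0) {ε : ℝ} (hε0 : 0 ≤ ε) (hε1 : ε ≤ 1) :
    GoodDensity K (fun x => 1 + ε * f x) := by
  have hprob := Final.unif_prob hK hKi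
  have hb : ∀ x, |ε * f x| ≤ 1 / 2 := by
    intro x
    rw [abs_mul, abs_of_nonneg hε0]
    calc ε * |f x| ≤ 1 * (1 / 2) := mul_le_mul hε1 (hB x) (abs_nonneg _) (by norm_num)
      _ = 1 / 2 := one_mul _
  refine ⟨measurable_const.add (hf.const_mul ε), ?_, ?_, ?_⟩
  · intro x
    have := (abs_le.1 (hb x)).1
    linarith only [this]
  · intro x
    have := (abs_le.1 (hb x)).2
    linarith only [this]
  · have i1 : Integrable f (unif K) := Integrable.of_bound hf.aestronglyMeasurable (1 / 2)
      (ae_of_all _ fun x => by rw [Real.norm_eq_abs]; exact hB x)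
    rw [integral_add (integrable_const _) (i1.const_mul ε), integral_const, probReal_univ,
      one_smul, integral_const_mul, hf0]
    ring

/-- Integral against a perturbed density. -/
theorem integral_perturbed {K : Set (E d)} (hK : IsCompact K) (hKi : (interior K).Nonempty)
    {f c : E d → ℝ} (hf : Measurable f) {B : ℝ} (hB : ∀ x, |f x| ≤ B) (hc : Continuous c)
    (ε : ℝ) :
    ∫ x, (1 + ε * f x) * c x ∂(unif K) =
      (∫ x, c x ∂(unif K)) + ε * ∫ x, c x * f x ∂(unif K) := by
  have i0 := Final.integrable_cont hK hKi hc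
  have i1 := Final.integrable_mul_bdd i0 hf hB
  rw [← integral_const_mul, ← integral_add i0 (i1.const_mul ε)]
  congr 1
  ext x
  ring

/-- Upper bound of the dual value for a perturbed source (concavity). -/
theorem deriv_upper {K : Set (E d)} (hK : IsCompact K)
    (hKi : (interior K).Nonempty) {R M : ℝ} (hR : 0 ≤ R) (hM : 0 ≤ M)
    (hKR : K ⊆ closedBall 0 R)
    {T₀ : E d → E d} (hT₀ : Measurable T₀)
    (hT₀M : ∀ᵐ x ∂(unif K), T₀ x ∈ closedBall (0 : E d) M)
    {ψ₀ : E d → ℝ} (hψ₀ : LipschitzWith R.toNNReal ψ₀)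
    (he₀ : ∀ᵐ x ∂(unif K), conj M ψ₀ x + ψ₀ (T₀ x) = ⟪x, T₀ x⟫)
    {f : E d → ℝ} (hf : Measurable f) (hB : ∀ x, |f x| ≤ 1 / 2)
    (hf0 : ∫ x, f x ∂(unif K) = 0) {ε : ℝ} (hε0 : 0 ≤ ε) (hε1 : ε ≤ 1) :
    dualVal R M (src K (fun x => 1 + ε * f x)) ((unif K).map T₀) -
      dualVal R M (unif K) ((unif K).map T₀) ≤ ε * ∫ x, conj M ψ₀ x * f x ∂(unif K) := by
  have hprob := Final.unif_prob hK hKi
  have hgood := goodDensity hK hKi hf hB hf0 hε0 hε1
  have hprobσ : IsProbabilityMeasure (src K fun x => 1 + ε * f x) :=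
    isProbabilityMeasure_src hK hKi hgood
  have hprobT : IsProbabilityMeasure ((unif K).map T₀) :=
    Measure.isProbabilityMeasure_map hT₀.aemeasurable
  have hςσ : (src K fun x => 1 + ε * f x) (closedBall 0 R)ᶜ = 0 :=
    measure_mono_null (compl_subset_compl.2 hKR) (src_compl hK)
  have hμM : ((unif K).map T₀) (closedBall 0 M)ᶜ = 0 := by
    rw [Measure.map_apply hT₀ measurableSet_closedBall.compl]
    exact ae_iff.1 hT₀M
  have h1 := dualVal_le hR hM hςσ hμM hψ₀
  have h2 := Final.le_dualVal_unif (R := R) hM hK hKi hT₀ hT₀M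
  have hσ0 : ∀ x, 0 ≤ 1 + ε * f x := fun x => le_trans (by norm_num) (hgood.lower x)
  rw [Final.dualFun_src hgood.meas hσ0 hT₀ hψ₀.continuous,
    integral_perturbed hK hKi hf hB (continuous_conj hM hψ₀.continuous)] at h1
  have h3 : (∫ x, ⟪x, T₀ x⟫ ∂(unif K)) =
      (∫ x, conj M ψ₀ x ∂(unif K)) + ∫ x, ψ₀ (T₀ x) ∂(unif K) := by
    rw [← integral_add (Final.integrable_cont hK hKi (continuous_conj hM hψ₀.continuous))
      (Final.integrable_comp hK hKi hT₀ hT₀M hψ₀.continuous)]
    apply integral_congr_ae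
    filter_upwards [he₀] with x hx using hx.symm
  linarith only [h1, h2, h3]

/-- Lower bound of the dual value for a perturbed source. -/
theorem deriv_lower {K : Set (E d)} (hK : IsCompact K) (hKc : Convex ℝ K)
    (hKi : (interior K).Nonempty) {R M : ℝ} (hR : 0 ≤ R) (hM : 0 ≤ M)
    (hKR : K ⊆ closedBall 0 R)
    {T₁ : E d → E d} (hT₁ : Measurable T₁)
    (hT₁M : ∀ᵐ x ∂(unif K), T₁ x ∈ closedBall (0 : E d) M)
    {ψ₁ : E d → ℝ} (hψ₁ : LipschitzWith R.toNNReal ψ₁)
    (he₁ : ∀ᵐ x ∂(unif K), conj M ψ₁ x + ψ₁ (T₁ x) = ⟪x, T₁ x⟫)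
    {f : E d → ℝ} (hf : Measurable f) (hB : ∀ x, |f x| ≤ 1 / 2)
    (hf0 : ∫ x, f x ∂(unif K) = 0) {ε : ℝ} (hε0 : 0 ≤ ε) (hε1 : ε ≤ 1) {n : ℕ} (hn : 0 < n) :
    ε * ((∫ x, conj M ψ₁ x * f x ∂(unif K)) -
        1 / 2 * (4 * R * M / n + 2 * (n + 1) * 2 ^ d * (ε * (2 * R * M)))) ≤
      dualVal R M (src K (fun x => 1 + ε * f x)) ((unif K).map T₁) -
      dualVal R M (unif K) ((unif K).map T₁) := by
  have hprob := Final.unif_prob hK hKi
  have hgood := goodDensity hK hKi hf hB hf0 hε0 hε1
  set ς := src K (fun x => 1 + ε * f x) with hς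
  have hprobσ : IsProbabilityMeasure ς := isProbabilityMeasure_src hK hKi hgood
  have hprobT : IsProbabilityMeasure ((unif K).map T₁) :=
    Measure.isProbabilityMeasure_map hT₁.aemeasurable
  have hςσ : ς (closedBall 0 R)ᶜ = 0 :=
    measure_mono_null (compl_subset_compl.2 hKR) (src_compl hK)
  have hρR : (unif K) (closedBall 0 R)ᶜ = 0 := unif_ball_compl hK hKR
  have hμM : ((unif K).map T₁) (closedBall 0 M)ᶜ = 0 := by
    rw [Measure.map_apply hT₁ measurableSet_closedBall.compl]
    exact ae_iff.1 hT₁M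
  obtain ⟨χ, T', hχ, hT'm, hT'M, hT'map, heχ⟩ := exists_optimal hR hM ς ((unif K).map T₁)
    (by rw [measure_univ, measure_univ]) (src_absolutelyContinuous K _) hςσ hμM
  have hσ0 : ∀ x, 0 ≤ 1 + ε * f x := fun x => le_trans (by norm_num) (hgood.lower x)
  -- `χ` is optimal for the perturbed source
  have hopt : ∀ ψ : E d → ℝ, LipschitzWith R.toNNReal ψ →
      dualFun M ς ((unif K).map T₁) χ ≤ dualFun M ς ((unif K).map T₁) ψ := by
    intro ψ hψ
    have hi : ∀ {φ : E d → ℝ}, Continuous φ → Integrable (fun x => φ (T' x)) ς := by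
      intro φ hφ
      obtain ⟨A, hA⟩ := (isCompact_closedBall (0 : E d) M).exists_bound_of_continuousOn
        hφ.continuousOn
      exact Integrable.of_bound (hφ.measurable.comp hT'm).aestronglyMeasurable A
        (ae_of_all _ fun x => hA _ (hT'M x))
    unfold dualFun
    rw [← hT'map, integral_map hT'm.aemeasurable hχ.continuous.aestronglyMeasurable,
      integral_map hT'm.aemeasurable hψ.continuous.aestronglyMeasurable,
      ← integral_add (integrable_of_continuous_of_ball hςσ (continuous_conj hM hχ.continuous))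
        (hi hχ.continuous),
      ← integral_add (integrable_of_continuous_of_ball hςσ (continuous_conj hM hψ.continuous))
        (hi hψ.continuous)]
    apply integral_mono_ae
      ((integrable_of_continuous_of_ball hςσ (continuous_conj hM hχ.continuous)).add
        (hi hχ.continuous))
      ((integrable_of_continuous_of_ball hςσ (continuous_conj hM hψ.continuous)).add
        (hi hψ.continuous))
    filter_upwards [heχ] with x hx
    have h1 := le_conj hψ.continuous x (hT'M x)
    show conj M χ x + χ (T' x) ≤ conj M ψ x + ψ (T' x)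
    rw [hx]
    linarith only [h1]
  have hcχ := continuous_conj hM hχ.continuous
  have hcψ := continuous_conj hM hψ₁.continuous
  have h1 : dualFun M ς ((unif K).map T₁) χ ≤ dualVal R M ς ((unif K).map T₁) :=
    le_dualVal hopt
  have h2 := dualVal_le hR hM hρR hμM hχ
  have h3 := hopt ψ₁ hψ₁
  have e1 := Final.dualFun_src (K := K) (M := M) hgood.meas hσ0 hT₁ hχ.continuous
  have e2 := Final.dualFun_src (K := K) (M := M) hgood.meas hσ0 hT₁ hψ₁.continuous
  have e3 := Final.dualFun_unif (M := M) (K := K) hT₁ hχ.continuous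
  rw [integral_perturbed hK hKi hf hB hcχ] at e1
  rw [integral_perturbed hK hKi hf hB hcψ] at e2
  change dualFun M ς ((unif K).map T₁) χ = _ at e1
  change dualFun M ς ((unif K).map T₁) ψ₁ = _ at e2
  have h4 : (∫ x, ⟪x, T₁ x⟫ ∂(unif K)) =
      (∫ x, conj M ψ₁ x ∂(unif K)) + ∫ x, ψ₁ (T₁ x) ∂(unif K) := by
    rw [← integral_add (Final.integrable_cont hK hKi hcψ)
      (Final.integrable_comp hK hKi hT₁ hT₁M hψ₁.continuous)]
    apply integral_congr_ae
    filter_upwards [he₁] with x hx using hx.symm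
  have h5 : (∫ x, gap M χ T₁ x ∂(unif K)) = (∫ x, conj M χ x ∂(unif K)) +
      (∫ x, χ (T₁ x) ∂(unif K)) - ∫ x, ⟪x, T₁ x⟫ ∂(unif K) := by
    unfold gap
    have j1 : Integrable (fun x => conj M χ x + χ (T₁ x)) (unif K) :=
      (Final.integrable_cont hK hKi hcχ).add
        (Final.integrable_comp hK hKi hT₁ hT₁M hχ.continuous)
    rw [integral_sub j1
      (Final.integrable_inner hK hKi hT₁ hT₁M (f := fun x => x) continuous_id),
      integral_add (Final.integrable_cont hK hKi hcχ)
      (Final.integrable_comp hK hKi hT₁ hT₁M hχ.continuous)]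
  set w : E d → ℝ := fun x => conj M χ x - conj M ψ₁ x with hw
  have hwc : Continuous w := hcχ.sub hcψ
  have e4 : (∫ x, w x * f x ∂(unif K)) =
      (∫ x, conj M χ x * f x ∂(unif K)) - ∫ x, conj M ψ₁ x * f x ∂(unif K) := by
    rw [← integral_sub (Final.integrable_mul_bdd (Final.integrable_cont hK hKi hcχ) hf hB)
      (Final.integrable_mul_bdd (Final.integrable_cont hK hKi hcψ) hf hB)]
    congr 1
    ext x
    simp only [hw]
    ring
  have hpair := pairing hK hKi hwc hf hB hf0
  -- a crude bound for the pairing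
  have hmem := Final.ae_mem_unif hK
  have hcrude : ∫⁻ x, ∫⁻ y, ‖w y - w x‖ₑ ∂(unif K) ∂(unif K) ≤ ENNReal.ofReal (4 * R * M) := by
    calc ∫⁻ x, ∫⁻ y, ‖w y - w x‖ₑ ∂(unif K) ∂(unif K)
        ≤ ∫⁻ _x, ∫⁻ _y, ENNReal.ofReal (4 * R * M) ∂(unif K) ∂(unif K) := by
          apply lintegral_mono_ae
          filter_upwards [hmem] with x hx
          apply lintegral_mono_ae
          filter_upwards [hmem] with y hy
          rw [Real.enorm_eq_ofReal_abs]
          apply ENNReal.ofReal_le_ofReal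
          have a1 := Final.conj_le_add hM hχ.continuous x y
          have a2 := Final.conj_le_add hM hχ.continuous y x
          have a3 := Final.conj_le_add hM hψ₁.continuous x y
          have a4 := Final.conj_le_add hM hψ₁.continuous y x
          rw [norm_sub_rev y x] at a2 a4
          have a5 : ‖x - y‖ ≤ R + R := (norm_sub_le _ _).trans
            (add_le_add (mem_closedBall_zero_iff.1 (hKR hx)) (mem_closedBall_zero_iff.1 (hKR hy)))
          have a6 : M * ‖x - y‖ ≤ M * (R + R) := mul_le_mul_of_nonneg_left a5 hM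
          simp only [hw]
          rw [abs_le]
          constructor <;> linarith only [a1, a2, a3, a4, a6]
      _ = ENNReal.ofReal (4 * R * M) := by
          rw [lintegral_const, lintegral_const, measure_univ, mul_one, mul_one]
  have hgap : ∫ x, gap M χ T₁ x ∂(unif K) ≤ ε * (2 * R * M) := by
    have b1 : |∫ x, w x * f x ∂(unif K)| ≤ 2 * R * M := by
      have b2 := hpair.trans (mul_le_mul' le_rfl hcrude)
      rw [← ENNReal.ofReal_mul (by norm_num), Real.enorm_eq_ofReal_abs,
        ENNReal.ofReal_le_ofReal_iff (by positivity)] at b2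
      linarith only [b2]
    have b3 := mul_le_mul_of_nonneg_left ((neg_le_abs _).trans b1) hε0
    rw [h5]
    rw [e1, e2] at h3
    rw [e4] at b3
    linarith only [h3, h4, b3]
  have hfine := pair_bound hK hKc hKi hR hM hKR hχ.continuous hψ₁.continuous hT₁ hT₁M he₁ hn
  have c1 : |∫ x, w x * f x ∂(unif K)| ≤
      1 / 2 * (4 * R * M / n + 2 * (n + 1) * 2 ^ d * (ε * (2 * R * M))) := by
    have c2 := hpair.trans (mul_le_mul' le_rfl hfine)
    have c3 : ENNReal.ofReal (4 * R * M / n + 2 * (n + 1) * 2 ^ d *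
        ∫ x, gap M χ T₁ x ∂(unif K)) ≤
        ENNReal.ofReal (4 * R * M / n + 2 * (n + 1) * 2 ^ d * (ε * (2 * R * M))) := by
      apply ENNReal.ofReal_le_ofReal
      gcongr
    have c4 := c2.trans (mul_le_mul' le_rfl c3)
    rwa [← ENNReal.ofReal_mul (by norm_num), Real.enorm_eq_ofReal_abs,
      ENNReal.ofReal_le_ofReal_iff (by positivity)] at c4
  have c5 := mul_le_mul_of_nonneg_left ((neg_le_abs _).trans c1) hε0
  rw [e1] at h1
  rw [e3] at h2
  rw [e4] at c5
  linarith only [h1, h2, c5]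

end Vale.Agent.P074.H20
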