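import Vale.Agent.P074.H20.MainExp

open MeasureTheory Set Metric Filter
open scoped ENNReal NNReal RealInnerProductSpace Topology

namespace Vale.Agent.P074.H20

variable {d : ℕ} {K : Set (E d)}

/-- The values of a map with law carried by a ball. -/
theorem ae_mem_of_map {M : ℝ} {T : E d → E d} (hT : Measurable T) {μ : Measure (E d)}
    (hmap : (unif K).map T = μ) (hμ : μ (closedBall 0 M)ᶜ = 0) :
    ∀ᵐ x ∂(unif K), T x ∈ closedBall (0 : E d) M := by
  have h1 : ∀ᵐ y ∂μ, y ∈ closedBall (0 : E d) M := hμ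
  rw [← hmap] at h1
  exact ae_of_ae_map hT.aemeasurable h1

/-- Stability of the potentials along couplings, centred case. -/
theorem pot_coupling (hK : IsCompact K) (hKc : Convex ℝ K) (hKi : (interior K).Nonempty)
    {R M : ℝ} (hR : 0 < R) (hM : 0 ≤ M) (hKR : K ⊆ closedBall 0 R)
    {μ ν : Measure (E d)} (hμM : μ (closedBall 0 M)ᶜ = 0) (hνM : ν (closedBall 0 M)ᶜ = 0)
    {T S : E d → E d} (hT : Measurable T) (hS : Measurable S)
    (hTmap : (unif K).map T = μ) (hSmap : (unif K).map S = ν)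
    {u v : E d → ℝ} (hu : ConvexOn ℝ K u) (hv : ConvexOn ℝ K v)
    (hgu : ∀ᵐ x ∂(unif K), HasGradientAt u (T x) x)
    (hgv : ∀ᵐ x ∂(unif K), HasGradientAt v (S x) x) :
    ∃ c : ℝ, ∀ π : Measure (E d × E d), π.map Prod.fst = μ → π.map Prod.snd = ν →
      eLpNorm (fun x => u x - v x - c) 2 (unif K) ≤
        ENNReal.ofReal (41 * R) * (∫⁻ z, ‖z.1 - z.2‖ₑ ^ (2 : ℝ) ∂π) ^ ((1 : ℝ) / 2) := by
  have hprob := Final.unif_prob hK hKi
  have hTM := ae_mem_of_map hT hTmap hμM
  have hSM := ae_mem_of_map hS hSmap hνM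
  obtain ⟨ψ₀, hψ₀, hu0, he₀⟩ := exists_dual_of_convex hK hKi hM hKR hu hgu hTM
  obtain ⟨ψ₁, hψ₁, hv1, he₁⟩ := exists_dual_of_convex hK hKi hM hKR hv hgv hSM
  have hc₀ := continuous_conj hM hψ₀.continuous
  have hc₁ := continuous_conj hM hψ₁.continuous
  refine ⟨-∫ y, (conj M ψ₁ y - conj M ψ₀ y) ∂(unif K), ?_⟩
  intro π h1 h2
  have hμp : IsProbabilityMeasure μ := by
    rw [← hTmap]; exact Measure.isProbabilityMeasure_map hT.aemeasurable
  have hπ : IsProbabilityMeasure π := by
    refine ⟨?_⟩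
    have h3 : π.map Prod.fst univ = 1 := by rw [h1]; exact measure_univ
    rwa [Measure.map_apply measurable_fst MeasurableSet.univ, preimage_univ] at h3
  have hBm : MeasurableSet (closedBall (0 : E d) M)ᶜ := isClosed_closedBall.measurableSet.compl
  have hsupp : π (closedBall 0 M ×ˢ closedBall 0 M)ᶜ = 0 := by
    have e : (closedBall (0 : E d) M ×ˢ closedBall (0 : E d) M)ᶜ =
        Prod.fst ⁻¹' (closedBall (0 : E d) M)ᶜ ∪ Prod.snd ⁻¹' (closedBall (0 : E d) M)ᶜ := by
      ext z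
      simp only [mem_compl_iff, mem_prod, mem_union, mem_preimage]
      tauto
    rw [e, measure_union_null_iff]
    constructor
    · rw [← Measure.map_apply measurable_fst hBm, h1]
      exact hμM
    · rw [← Measure.map_apply measurable_snd hBm, h2]
      exact hνM
  set J := ∫ z, ‖z.1 - z.2‖ ^ 2 ∂π with hJ
  have hJ0 : 0 ≤ J := integral_nonneg fun z => by positivity
  have hmain := pot_stab hK hKc hKi hR.le hM hKR (C := 41 * R) (W := √J) hT hS hTM hSM hψ₀ hψ₁
    he₀ he₁ (by
      intro σ hσ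
      have := main_explicit hK hKc hKi hR hM hKR hσ hπ hsupp
      rwa [h1, h2, ← hTmap, ← hSmap] at this)
  set m := ∫ y, (conj M ψ₁ y - conj M ψ₀ y) ∂(unif K) with hm
  have hae : (fun x => u x - v x - -m) =ᵐ[unif K]
      fun x => -(conj M ψ₁ x - conj M ψ₀ x - m) := by
    filter_upwards [hu0, hv1] with x h3 h4
    rw [h3, h4]
    ring
  rw [eLpNorm_congr_ae hae]
  have hcont : Continuous fun x => -(conj M ψ₁ x - conj M ψ₀ x - m) :=
    ((hc₁.sub hc₀).sub continuous_const).neg
  have hmem : MemLp (fun x => -(conj M ψ₁ x - conj M ψ₀ x - m)) 2 (unif K) := by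
    obtain ⟨B, hB⟩ := hK.exists_bound_of_continuousOn hcont.continuousOn
    apply MemLp.of_bound hcont.aestronglyMeasurable B
    filter_upwards [Final.ae_mem_unif hK] with x hx using hB x hx
  have hae1 : ∀ᵐ z ∂π, ‖z.1‖ ≤ M ∧ ‖z.2‖ ≤ M := by
    have : ∀ᵐ z ∂π, z ∈ closedBall (0 : E d) M ×ˢ closedBall (0 : E d) M := by
      rw [ae_iff]
      exact hsupp
    filter_upwards [this] with z hz
    exact ⟨mem_closedBall_zero_iff.1 hz.1, mem_closedBall_zero_iff.1 hz.2⟩
  have hint : ∫⁻ z, ‖z.1 - z.2‖ₑ ^ (2 : ℝ) ∂π = ENNReal.ofReal J := by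
    rw [hJ, ofReal_integral_eq_lintegral_ofReal]
    · apply lintegral_congr
      intro z
      rw [ENNReal.ofReal_pow (norm_nonneg _), ofReal_norm]
      norm_num
    · apply Integrable.of_bound (C := (M + M) ^ 2) (by fun_prop)
      filter_upwards [hae1] with z hz
      rw [Real.norm_of_nonneg (by positivity)]
      gcongr
      exact le_trans (norm_sub_le _ _) (add_le_add hz.1 hz.2)
    · filter_upwards with z
      positivity
  rw [hmem.eLpNorm_eq_integral_rpow_norm (by norm_num) (by norm_num), hint,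
    ENNReal.ofReal_rpow_of_nonneg hJ0 (by norm_num), ← ENNReal.ofReal_mul (by positivity)]
  apply ENNReal.ofReal_le_ofReal
  simp only [ENNReal.toReal_ofNat, Real.rpow_ofNat, norm_neg, Real.norm_eq_abs, sq_abs]
  rw [← Real.sqrt_eq_rpow J]
  have h5 : (∫ x, (conj M ψ₁ x - conj M ψ₀ x - m) ^ 2 ∂(unif K)) ^ ((2 : ℝ)⁻¹) ≤
      ((41 * R * √J) ^ 2) ^ ((2 : ℝ)⁻¹) :=
    Real.rpow_le_rpow (integral_nonneg fun x => sq_nonneg _) hmain (by norm_num)
  refine h5.trans (le_of_eq ?_)
  rw [← one_div, ← Real.sqrt_eq_rpow, Real.sqrt_sq (by positivity)]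

/-- Stability of the potentials, centred case. -/
theorem pot_wass (hK : IsCompact K) (hKc : Convex ℝ K) (hKi : (interior K).Nonempty)
    {R M : ℝ} (hR : 0 < R) (hM : 0 ≤ M) (hKR : K ⊆ closedBall 0 R)
    {μ ν : Measure (E d)} (hμM : μ (closedBall 0 M)ᶜ = 0) (hνM : ν (closedBall 0 M)ᶜ = 0)
    {T S : E d → E d} (hT : Measurable T) (hS : Measurable S)
    (hTmap : (unif K).map T = μ) (hSmap : (unif K).map S = ν)
    {u v : E d → ℝ} (hu : ConvexOn ℝ K u) (hv : ConvexOn ℝ K v)
    (hgu : ∀ᵐ x ∂(unif K), HasGradientAt u (T x) x)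
    (hgv : ∀ᵐ x ∂(unif K), HasGradientAt v (S x) x) :
    ∃ c : ℝ, eLpNorm (fun x => u x - v x - c) 2 (unif K) ≤
        ENNReal.ofReal (41 * R) * Wass 2 μ ν := by
  obtain ⟨c, hc⟩ := pot_coupling hK hKc hKi hR hM hKR hμM hνM hT hS hTmap hSmap hu hv hgu hgv
  refine ⟨c, ?_⟩
  have h := le_of_forall_coupling (μ := μ) (ν := ν) (C := Real.toNNReal (41 * R)) (p := 2)
    (α := 1) (by norm_num) (by norm_num) (Real.toNNReal_pos.2 (by positivity)).ne' hc
  rwa [ENNReal.rpow_one] at h

/-- Translation of the uniform measure. -/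
theorem mp_translate (hK : MeasurableSet K) (x0 : E d) :
    MeasurePreserving (fun z => x0 + z) (unif ((fun z => x0 + z) ⁻¹' K)) (unif K) := by
  have h1 : MeasurePreserving (fun z : E d => x0 + z) (volume.restrict ((fun z => x0 + z) ⁻¹' K))
      (volume.restrict K) :=
    (measurePreserving_add_left volume x0).restrict_preimage hK
  have h2 : volume ((fun z : E d => x0 + z) ⁻¹' K) = volume K :=
    measure_preimage_add volume x0 K
  refine ⟨measurable_const_add x0, ?_⟩
  unfold unif ProbabilityTheory.cond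
  rw [Measure.map_smul, h1.map_eq, h2]

/-- Stability of the potentials. -/
theorem pot_final (hd : 1 ≤ d) (hK : IsCompact K) (hKc : Convex ℝ K)
    (hKi : (interior K).Nonempty) {M : ℝ}
    {μ ν : Measure (E d)} (hμM : μ (closedBall 0 M)ᶜ = 0) (hνM : ν (closedBall 0 M)ᶜ = 0)
    {T S : E d → E d} (hT : Measurable T) (hS : Measurable S)
    (hTmap : (unif K).map T = μ) (hSmap : (unif K).map S = ν)
    {u v : E d → ℝ} (hu : ConvexOn ℝ K u) (hv : ConvexOn ℝ K v)
    (hgu : ∀ᵐ x ∂(unif K), HasGradientAt u (T x) x)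
    (hgv : ∀ᵐ x ∂(unif K), HasGradientAt v (S x) x) :
    ∃ c : ℝ, eLpNorm (fun x => u x - v x - c) 2 (unif K) ≤
        ENNReal.ofReal (41 * diam K) * Wass 2 μ ν := by
  obtain ⟨x0, hx0⟩ := hKi
  have hx0K : x0 ∈ K := interior_subset hx0
  obtain ⟨r, hr, hball⟩ := Metric.isOpen_iff.1 isOpen_interior x0 hx0
  have hdiam : 0 < diam K := by
    have : Nonempty (Fin d) := ⟨⟨0, hd⟩⟩
    obtain ⟨w, hw⟩ := exists_norm_eq (E d) (c := r / 2) (by positivity)
    have h1 : x0 + w ∈ K := interior_subset (hball (by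
      rw [mem_ball, dist_eq_norm, add_sub_cancel_left, hw]; linarith only [hr]))
    have h2 := dist_le_diam_of_mem hK.isBounded h1 hx0K
    rw [dist_eq_norm, add_sub_cancel_left, hw] at h2
    linarith only [h2, hr]
  have hmp := mp_translate (K := K) hK.measurableSet x0
  set K' : Set (E d) := (fun z => x0 + z) ⁻¹' K with hK'
  have hhom : K' = (Homeomorph.addLeft x0) ⁻¹' K := rfl
  have hK'c : IsCompact K' := by
    rw [hhom]
    exact (Homeomorph.addLeft x0).isCompact_preimage.2 hK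
  have hK'i : (interior K').Nonempty := by
    refine ⟨0, ?_⟩
    rw [hhom, ← (Homeomorph.addLeft x0).preimage_interior]
    show x0 + 0 ∈ interior K
    rwa [add_zero]
  have hK'conv : Convex ℝ K' := by
    have := hKc.translate_preimage_right x0
    exact this
  have hK'R : K' ⊆ closedBall 0 (diam K) := by
    intro z hz
    have h1 : x0 + z ∈ K := hz
    have h2 := dist_le_diam_of_mem hK.isBounded h1 hx0K
    rw [dist_eq_norm, add_sub_cancel_left] at h2
    rwa [mem_closedBall_zero_iff]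
  have hmM : max M 0 ≥ 0 := le_max_right _ _
  have hsub : (closedBall (0 : E d) (max M 0))ᶜ ⊆ (closedBall (0 : E d) M)ᶜ :=
    compl_subset_compl.2 (closedBall_subset_closedBall (le_max_left _ _))
  have hT' : Measurable fun x => T (x0 + x) := hT.comp (measurable_const_add x0)
  have hS' : Measurable fun x => S (x0 + x) := hS.comp (measurable_const_add x0)
  have hTmap' : (unif K').map (fun x => T (x0 + x)) = μ := by
    rw [← hTmap, ← hmp.map_eq, Measure.map_map hT (measurable_const_add x0)]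
    rfl
  have hSmap' : (unif K').map (fun x => S (x0 + x)) = ν := by
    rw [← hSmap, ← hmp.map_eq, Measure.map_map hS (measurable_const_add x0)]
    rfl
  have hgrad : ∀ {w : E d → ℝ} {F : E d → E d}, (∀ᵐ x ∂(unif K), HasGradientAt w (F x) x) →
      ∀ᵐ x ∂(unif K'), HasGradientAt (fun z => w (x0 + z)) (F (x0 + x)) x := by
    intro w F hw
    rw [← hmp.map_eq] at hw
    have h1 := ae_of_ae_map (measurable_const_add x0).aemeasurable hw
    filter_upwards [h1] with x hx
    have h2 : HasFDerivAt (fun z => x0 + z) (ContinuousLinearMap.id ℝ (E d)) x :=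
      (hasFDerivAt_id x).const_add x0
    have h3 := hx.hasFDerivAt.comp x h2
    rw [ContinuousLinearMap.comp_id] at h3
    exact h3
  have hu' : ConvexOn ℝ K' (fun z => u (x0 + z)) := hu.translate_right x0
  have hv' : ConvexOn ℝ K' (fun z => v (x0 + z)) := hv.translate_right x0
  obtain ⟨c, hc⟩ := pot_wass hK'c hK'conv hK'i hdiam hmM hK'R
    (measure_mono_null hsub hμM) (measure_mono_null hsub hνM) hT' hS' hTmap' hSmap' hu' hv'
    (hgrad hgu) (hgrad hgv)
  refine ⟨c, ?_⟩
  obtain ⟨R₀, hR₀, hKR₀⟩ := hK.isBounded.exists_pos_norm_le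
  have hKR₀' : K ⊆ closedBall 0 R₀ := fun x hx => mem_closedBall_zero_iff.2 (hKR₀ x hx)
  have hKi' : (interior K).Nonempty := ⟨x0, hx0⟩
  have hae : ∀ {w : E d → ℝ} {F : E d → E d} {κ : Measure (E d)}, Measurable F →
      (unif K).map F = κ → κ (closedBall 0 M)ᶜ = 0 → ConvexOn ℝ K w →
      (∀ᵐ x ∂(unif K), HasGradientAt w (F x) x) → AEStronglyMeasurable w (unif K) := by
    intro w F κ hF hmap hκ hw hgw
    have hFM : ∀ᵐ x ∂(unif K), F x ∈ closedBall (0 : E d) (max M 0) :=
      ae_mem_of_map hF hmap (measure_mono_null hsub hκ)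
    obtain ⟨ψ, hψ, hwψ, _⟩ := exists_dual_of_convex hK hKi' hmM hKR₀' hw hgw hFM
    exact (continuous_conj hmM hψ.continuous).aestronglyMeasurable.congr hwψ
  have hmeas : AEStronglyMeasurable (fun x => u x - v x - c) (unif K) :=
    ((hae hT hTmap hμM hu hgu).sub (hae hS hSmap hνM hv hgv)).sub
      aestronglyMeasurable_const
  have e := eLpNorm_comp_measurePreserving (p := 2) hmeas hmp
  rw [← e]
  exact hc

end Vale.Agent.P074.H20
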