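import Vale.Agent.P074.H20.Defs
import Vale.Agent.P074.H20.Final
import Vale.Agent.P074.H109.Main

open MeasureTheory Set Metric
open scoped ENNReal NNReal

namespace Vale.Agent.P074.H20

variable {d : ℕ}

/-- Every target with bounded support has a Brenier potential, convex on the whole space. -/
theorem exists_potential {K : Set (E d)} (hK : IsCompact K) (hKi : (interior K).Nonempty)
    {μ : Measure (E d)} (hμ : IsProbabilityMeasure μ) {M : ℝ} (hμM : μ (closedBall 0 M)ᶜ = 0) :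
    ∃ u : E d → ℝ, ConvexOn ℝ univ u ∧ ∃ T : E d → E d, IsOptimalMap (unif K) μ T ∧
      ∀ᵐ x ∂(unif K), HasGradientAt u (T x) x := by
  have hprob := Final.unif_prob hK hKi
  obtain ⟨R, hR, hKR⟩ := hK.isBounded.exists_pos_norm_le
  have hKR' : K ⊆ closedBall 0 R := fun x hx => mem_closedBall_zero_iff.2 (hKR x hx)
  have hM0 : 0 ≤ max M 0 := le_max_right _ _
  have hμM' : μ (closedBall 0 (max M 0))ᶜ = 0 :=
    measure_mono_null (compl_subset_compl.2 (closedBall_subset_closedBall (le_max_left _ _))) hμM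
  obtain ⟨T, hT⟩ := H109.exists_optimalMap (ρ := unif K) hR.le hM0 unif_ac
    (unif_ball_compl hK hKR') hμ hμM'
  obtain ⟨ψ, hψ, he⟩ := optimalMap_potential hK hKi hR.le hM0 hKR' hμ hμM' hT
  refine ⟨conj (max M 0) ψ, convexOn_conj hM0 hψ.continuous, T, hT, ?_⟩
  exact hasGradientAt_conj hM0 hψ.continuous (ae_mem_of_map hT.1 hT.2.1 hμM') he

/-- The whole result. -/
theorem main (d : ℕ) (hd : 2 ≤ d) :
    IsGreatest {α : ℝ | 0 < α ∧ α ≤ 1 ∧ Admissible d α} (1 / 3) ∧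
    ∀ K : Set (E d), IsCompact K → Convex ℝ K → (interior K).Nonempty →
      (∀ μ : Measure (E d), IsProbabilityMeasure μ → (∃ M : ℝ, μ (closedBall 0 M)ᶜ = 0) →
        ∃ u : E d → ℝ, IsPotential K μ u) ∧
      (∀ μ ν : Measure (E d), IsProbabilityMeasure μ → IsProbabilityMeasure ν →
        (∃ M : ℝ, μ (closedBall 0 M)ᶜ = 0) → (∃ M : ℝ, ν (closedBall 0 M)ᶜ = 0) →
        ∀ u v : E d → ℝ, IsPotential K μ u → IsPotential K ν v →
          ∃ c : ℝ, eLpNorm (fun x => u x - v x - c) 2 (unif K) ≤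
            ENNReal.ofReal (41 * diam K) * Wass 2 μ ν) := by
  refine ⟨isGreatest_third d hd, ?_⟩
  intro K hK hKc hKi
  refine ⟨?_, ?_⟩
  · rintro μ hμ ⟨M, hM⟩
    obtain ⟨u, hu, T, hT, hg⟩ := exists_potential hK hKi hμ hM
    exact ⟨u, hu.subset (subset_univ K) hKc, T, hT, hg⟩
  · rintro μ ν _ _ ⟨M₁, hM₁⟩ ⟨M₂, hM₂⟩ u v ⟨hu, T, hT, hgu⟩ ⟨hv, S, hS, hgv⟩
    have h1 : μ (closedBall 0 (max M₁ M₂))ᶜ = 0 :=
      measure_mono_null (compl_subset_compl.2 (closedBall_subset_closedBall (le_max_left _ _))) hM₁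
    have h2 : ν (closedBall 0 (max M₁ M₂))ᶜ = 0 :=
      measure_mono_null (compl_subset_compl.2 (closedBall_subset_closedBall (le_max_right _ _)))
        hM₂
    exact pot_final (by omega) hK hKc hKi h1 h2 hT.1 hS.1 hT.2.1 hS.2.1 hu hv hgu hgv

end Vale.Agent.P074.H20
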