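import Vale.Agent.P074.H20.ConvexFn

open MeasureTheory Set Metric Filter
open scoped ENNReal NNReal RealInnerProductSpace Topology

namespace Vale.Agent.P074.H20

variable {d : ℕ} {K : Set (E d)}

/-- The main inequality for dual values with its constant. -/
theorem main_ineq_const (hK : IsCompact K) (hKi : (interior K).Nonempty)
    {R M : ℝ} (hR : 0 ≤ R) (hM : 0 ≤ M) (hKR : K ⊆ closedBall 0 R) (hW : ExistsWeights K)
    {C : ℝ} (hC0 : 0 ≤ C)
    (hC : ∀ (ι : Type) [Fintype ι] (y : ι → E d), Function.Injective y →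
      ∀ (ψ ψ' : ι → ℝ),
      (∀ i, 0 < volume.real (cell K y ψ i)) →
      (∀ i, volume.real (cell K y ψ i) ≤ 2 * volume.real (cell K y ψ' i)) →
      (∀ i, volume.real (cell K y ψ' i) ≤ 2 * volume.real (cell K y ψ i)) →
      ∑ i, ‖(∫ x in cell K y ψ' i, x) - ∫ x in cell K y ψ i, x‖ ^ 2
        / volume.real (cell K y ψ i) ≤
      C * ∑ i, (volume.real (cell K y ψ' i) - volume.real (cell K y ψ i)) ^ 2
        / volume.real (cell K y ψ i))
    {σ : E d → ℝ} (hσ : GoodDensity K σ) {π : Measure (E d × E d)}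
    (hπ : IsProbabilityMeasure π) (hπM : π (closedBall 0 M ×ˢ closedBall 0 M)ᶜ = 0) :
    (dualVal R M (src K σ) (π.map Prod.snd) - dualVal R M (src K σ) (π.map Prod.fst))
        - (dualVal R M (unif K) (π.map Prod.snd) - dualVal R M (unif K) (π.map Prod.fst))
      ≤ √(4 * (C + R ^ 2)) * √(∫ x, (σ x - 1) ^ 2 ∂(unif K)) * √(∫ z, ‖z.1 - z.2‖ ^ 2 ∂π) := by
  have hpu := isProb_unif hK hKi
  have hps := isProbabilityMeasure_src hK hKi hσ
  have hςR : src K σ (closedBall 0 R)ᶜ = 0 :=
    measure_mono_null (compl_subset_compl.2 hKR) (src_compl hK)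
  have hρR : unif K (closedBall 0 R)ᶜ = 0 := unif_ball_compl hK hKR
  have h0 : (0 : E d) ∈ closedBall (0 : E d) M := mem_closedBall_self hM
  let Q : ℕ → SimpleFunc (E d) (E d) := fun n =>
    SimpleFunc.approxOn id measurable_id (closedBall (0 : E d) M) 0 h0 n
  have hQmem : ∀ n x, Q n x ∈ closedBall (0 : E d) M := fun n x =>
    SimpleFunc.approxOn_mem measurable_id h0 n x
  have hQlim : ∀ x ∈ closedBall (0 : E d) M, Tendsto (fun n => Q n x) atTop (𝓝 x) :=
    fun x hx => SimpleFunc.tendsto_approxOn measurable_id h0 (subset_closure hx)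
  have hQn : ∀ n x, ‖Q n x‖ ≤ M := fun n x => by simpa only [mem_closedBall, dist_zero_right] using hQmem n x
  have hae : ∀ᵐ z ∂π, z ∈ closedBall (0 : E d) M ×ˢ closedBall (0 : E d) M := by
    rw [ae_iff]
    exact hπM
  have hf1 : (π.map Prod.fst) (closedBall 0 M)ᶜ = 0 := by
    rw [Measure.map_apply measurable_fst measurableSet_closedBall.compl]
    refine measure_mono_null ?_ hπM
    intro z hz hz'
    exact hz hz'.1
  have hf2 : (π.map Prod.snd) (closedBall 0 M)ᶜ = 0 := by
    rw [Measure.map_apply measurable_snd measurableSet_closedBall.compl]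
    refine measure_mono_null ?_ hπM
    intro z hz hz'
    exact hz hz'.2
  have hp1 : IsProbabilityMeasure (π.map Prod.fst) :=
    Measure.isProbabilityMeasure_map measurable_fst.aemeasurable
  have hp2 : IsProbabilityMeasure (π.map Prod.snd) :=
    Measure.isProbabilityMeasure_map measurable_snd.aemeasurable
  have he1 : Tendsto (fun n => ∫ z, ‖Q n z.1 - z.1‖ ∂π) atTop (𝓝 0) := by
    have h := tendsto_integral_of_dominated_convergence (μ := π)
      (F := fun n (z : E d × E d) => ‖Q n z.1 - z.1‖) (f := fun _ => (0 : ℝ))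
      (fun _ => M + M)
      (fun n => ((((Q n).measurable.comp measurable_fst).sub measurable_fst).norm).aestronglyMeasurable)
      (integrable_const _)
      (fun n => by
        filter_upwards [hae] with z hz
        rw [norm_norm]
        refine (norm_sub_le _ _).trans (add_le_add (hQn n _) (by simpa only [mem_closedBall, dist_zero_right] using hz.1)))
      (by
        filter_upwards [hae] with z hz
        have := ((hQlim z.1 hz.1).sub_const z.1).norm
        simpa only [sub_self, norm_zero] using this)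
    simpa only [integral_zero] using h
  have he2 : Tendsto (fun n => ∫ z, ‖Q n z.2 - z.2‖ ∂π) atTop (𝓝 0) := by
    have h := tendsto_integral_of_dominated_convergence (μ := π)
      (F := fun n (z : E d × E d) => ‖Q n z.2 - z.2‖) (f := fun _ => (0 : ℝ))
      (fun _ => M + M)
      (fun n => ((((Q n).measurable.comp measurable_snd).sub measurable_snd).norm).aestronglyMeasurable)
      (integrable_const _)
      (fun n => by
        filter_upwards [hae] with z hz
        rw [norm_norm]
        refine (norm_sub_le _ _).trans (add_le_add (hQn n _) (by simpa only [mem_closedBall, dist_zero_right] using hz.2)))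
      (by
        filter_upwards [hae] with z hz
        have := ((hQlim z.2 hz.2).sub_const z.2).norm
        simpa only [sub_self, norm_zero] using this)
    simpa only [integral_zero] using h
  have hc : Tendsto (fun n => ∫ z, ‖Q n z.2 - Q n z.1‖ ^ 2 ∂π) atTop
      (𝓝 (∫ z, ‖z.2 - z.1‖ ^ 2 ∂π)) := by
    refine tendsto_integral_of_dominated_convergence (μ := π)
      (F := fun n (z : E d × E d) => ‖Q n z.2 - Q n z.1‖ ^ 2)
      (fun _ => (M + M) ^ 2) (fun n => ?_) (integrable_const _) (fun n => ?_) ?_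
    · exact (((((Q n).measurable.comp measurable_snd).sub
        ((Q n).measurable.comp measurable_fst)).norm).pow_const 2).aestronglyMeasurable
    · filter_upwards with z
      rw [norm_pow, norm_norm]
      have := (norm_sub_le (Q n z.2) (Q n z.1)).trans (add_le_add (hQn n _) (hQn n _))
      (clear * - this; gcongr)
    · filter_upwards [hae] with z hz
      exact ((((hQlim z.2 hz.2).sub (hQlim z.1 hz.1)).norm).pow 2)
  have hlip : ∀ ψ : E d → ℝ, LipschitzWith R.toNNReal ψ → ∀ x y, |ψ x - ψ y| ≤ R * ‖x - y‖ := by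
    intro ψ hψ x y
    have := hψ.dist_le_mul x y
    rwa [Real.dist_eq, Real.coe_toNNReal _ hR, dist_eq_norm] at this
  have hint : ∀ ψ : E d → ℝ, LipschitzWith R.toNNReal ψ → ∀ f : E d × E d → E d, Measurable f →
      (∀ᵐ z ∂π, ‖f z‖ ≤ M) → Integrable (fun z => ψ (f z)) π := by
    intro ψ hψ f hf hb
    refine Integrable.mono' (integrable_const (|ψ 0| + R * M))
      (hψ.continuous.measurable.comp hf).aestronglyMeasurable ?_
    filter_upwards [hb] with z hz
    have h1 := hlip ψ hψ (f z) 0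
    have h2 : R * ‖f z - 0‖ ≤ R * M := by
      rw [sub_zero]
      exact mul_le_mul_of_nonneg_left hz hR
    rw [Real.norm_eq_abs]
    have h3 : |ψ (f z)| ≤ |ψ (f z) - ψ 0| + |ψ 0| := by
      have := abs_add_le (ψ (f z) - ψ 0) (ψ 0)
      simpa only [ge_iff_le, sub_add_cancel] using this
    linarith only [h1, h2, h3]
  have hn : ∀ n, (dualVal R M (src K σ) (π.map Prod.snd) - dualVal R M (src K σ) (π.map Prod.fst))
        - (dualVal R M (unif K) (π.map Prod.snd) - dualVal R M (unif K) (π.map Prod.fst))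
      ≤ √(4 * (C + R ^ 2)) * √(∫ x, (σ x - 1) ^ 2 ∂(unif K)) *
          √(∫ z, ‖Q n z.2 - Q n z.1‖ ^ 2 ∂π)
        + 2 * R * (∫ z, ‖Q n z.1 - z.1‖ ∂π + ∫ z, ‖Q n z.2 - z.2‖ ∂π) := by
    intro n
    obtain ⟨I, hIf, hIne, m, a, b, hm, hsum, ha, hb, hg⟩ := exists_discrete π (Q n)
    have ha' : ∀ i, a i ∈ closedBall (0 : E d) M := fun i => by
      obtain ⟨x, hx⟩ := ha i
      rw [← hx]
      exact hQmem n x
    have hb' : ∀ i, b i ∈ closedBall (0 : E d) M := fun i => by
      obtain ⟨x, hx⟩ := hb i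
      rw [← hx]
      exact hQmem n x
    have hat := atomic_ineq hK hKi hR hM hKR hW hC0 hC hσ hm hsum ha' hb'
    have hcost : ∑ i, m i * ‖b i - a i‖ ^ 2 = ∫ z, ‖Q n z.2 - Q n z.1‖ ^ 2 ∂π :=
      hg (fun p => ‖p.2 - p.1‖ ^ 2)
    rw [hcost] at hat
    have hpa := isProbabilityMeasure_atomic (y := a) (fun i => (hm i).le) hsum
    have hpb := isProbabilityMeasure_atomic (y := b) (fun i => (hm i).le) hsum
    have hac := atomic_compl (m := m) measurableSet_closedBall ha'
    have hbc := atomic_compl (m := m) measurableSet_closedBall hb'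
    have hia : ∀ ψ : E d → ℝ, ∫ x, ψ x ∂(atomic m a) = ∫ z, ψ (Q n z.1) ∂π := fun ψ => by
      rw [integral_atomic (fun i => (hm i).le)]
      exact hg (fun p => ψ p.1)
    have hib : ∀ ψ : E d → ℝ, ∫ x, ψ x ∂(atomic m b) = ∫ z, ψ (Q n z.2) ∂π := fun ψ => by
      rw [integral_atomic (fun i => (hm i).le)]
      exact hg (fun p => ψ p.2)
    have hif : ∀ ψ : E d → ℝ, LipschitzWith R.toNNReal ψ →
        ∫ x, ψ x ∂(π.map Prod.fst) = ∫ z, ψ z.1 ∂π := fun ψ hψ =>
      integral_map measurable_fst.aemeasurable hψ.continuous.aestronglyMeasurable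
    have his : ∀ ψ : E d → ℝ, LipschitzWith R.toNNReal ψ →
        ∫ x, ψ x ∂(π.map Prod.snd) = ∫ z, ψ z.2 ∂π := fun ψ hψ =>
      integral_map measurable_snd.aemeasurable hψ.continuous.aestronglyMeasurable
    have hn1 : ∀ᵐ z ∂π, ‖z.1‖ ≤ M := by
      filter_upwards [hae] with z hz
      simpa only [mem_closedBall, dist_zero_right] using hz.1
    have hn2 : ∀ᵐ z ∂π, ‖z.2‖ ≤ M := by
      filter_upwards [hae] with z hz
      simpa only [mem_closedBall, dist_zero_right] using hz.2
    have hi1 : Integrable (fun z : E d × E d => ‖Q n z.1 - z.1‖) π := by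
      refine Integrable.mono' (integrable_const (M + M))
        ((((Q n).measurable.comp measurable_fst).sub measurable_fst).norm).aestronglyMeasurable ?_
      filter_upwards [hn1] with z hz
      rw [norm_norm]
      exact (norm_sub_le _ _).trans (add_le_add (hQn n _) hz)
    have hi2 : Integrable (fun z : E d × E d => ‖Q n z.2 - z.2‖) π := by
      refine Integrable.mono' (integrable_const (M + M))
        ((((Q n).measurable.comp measurable_snd).sub measurable_snd).norm).aestronglyMeasurable ?_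
      filter_upwards [hn2] with z hz
      rw [norm_norm]
      exact (norm_sub_le _ _).trans (add_le_add (hQn n _) hz)
    have hd1 : ∀ ψ : E d → ℝ, LipschitzWith R.toNNReal ψ →
        |∫ z, ψ (Q n z.1) ∂π - ∫ z, ψ z.1 ∂π| ≤ R * ∫ z, ‖Q n z.1 - z.1‖ ∂π := by
      intro ψ hψ
      have j1 : Integrable (fun z : E d × E d => ψ (Q n z.1)) π :=
        hint ψ hψ (fun z => Q n z.1) ((Q n).measurable.comp measurable_fst)
          (Eventually.of_forall fun z => hQn n _)
      have j2 : Integrable (fun z : E d × E d => ψ z.1) π :=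
        hint ψ hψ (fun z => z.1) measurable_fst hn1
      rw [← integral_sub j1 j2, ← integral_const_mul]
      refine (abs_integral_le_integral_abs).trans ?_
      exact integral_mono (j1.sub j2).abs (hi1.const_mul _) fun z => hlip ψ hψ _ _
    have hd2 : ∀ ψ : E d → ℝ, LipschitzWith R.toNNReal ψ →
        |∫ z, ψ (Q n z.2) ∂π - ∫ z, ψ z.2 ∂π| ≤ R * ∫ z, ‖Q n z.2 - z.2‖ ∂π := by
      intro ψ hψ
      have j1 : Integrable (fun z : E d × E d => ψ (Q n z.2)) π :=
        hint ψ hψ (fun z => Q n z.2) ((Q n).measurable.comp measurable_snd)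
          (Eventually.of_forall fun z => hQn n _)
      have j2 : Integrable (fun z : E d × E d => ψ z.2) π :=
        hint ψ hψ (fun z => z.2) measurable_snd hn2
      rw [← integral_sub j1 j2, ← integral_const_mul]
      refine (abs_integral_le_integral_abs).trans ?_
      exact integral_mono (j1.sub j2).abs (hi2.const_mul _) fun z => hlip ψ hψ _ _
    have k1 : dualVal R M (src K σ) (π.map Prod.snd) ≤ dualVal R M (src K σ) (atomic m b)
        + R * ∫ z, ‖Q n z.2 - z.2‖ ∂π := by
      refine dualVal_le_add hR hM hςR hf2 fun ψ hψ => ?_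
      rw [his ψ hψ, hib]
      have := abs_le.1 (hd2 ψ hψ)
      linarith only [this]
    have k2 : dualVal R M (src K σ) (atomic m a) ≤ dualVal R M (src K σ) (π.map Prod.fst)
        + R * ∫ z, ‖Q n z.1 - z.1‖ ∂π := by
      refine dualVal_le_add hR hM hςR hac fun ψ hψ => ?_
      rw [hif ψ hψ, hia]
      have := abs_le.1 (hd1 ψ hψ)
      linarith only [this]
    have k3 : dualVal R M (unif K) (atomic m b) ≤ dualVal R M (unif K) (π.map Prod.snd)
        + R * ∫ z, ‖Q n z.2 - z.2‖ ∂π := by
      refine dualVal_le_add hR hM hρR hbc fun ψ hψ => ?_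
      rw [his ψ hψ, hib]
      have := abs_le.1 (hd2 ψ hψ)
      linarith only [this]
    have k4 : dualVal R M (unif K) (π.map Prod.fst) ≤ dualVal R M (unif K) (atomic m a)
        + R * ∫ z, ‖Q n z.1 - z.1‖ ∂π := by
      refine dualVal_le_add hR hM hρR hf1 fun ψ hψ => ?_
      rw [hif ψ hψ, hia]
      have := abs_le.1 (hd1 ψ hψ)
      linarith only [this]
    linarith only [hat, k1, k2, k3, k4]
  have hlim : Tendsto (fun n => √(4 * (C + R ^ 2)) * √(∫ x, (σ x - 1) ^ 2 ∂(unif K)) *
          √(∫ z, ‖Q n z.2 - Q n z.1‖ ^ 2 ∂π)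
        + 2 * R * (∫ z, ‖Q n z.1 - z.1‖ ∂π + ∫ z, ‖Q n z.2 - z.2‖ ∂π)) atTop
      (𝓝 (√(4 * (C + R ^ 2)) * √(∫ x, (σ x - 1) ^ 2 ∂(unif K)) *
          √(∫ z, ‖z.2 - z.1‖ ^ 2 ∂π) + 2 * R * (0 + 0))) := by
    refine Tendsto.add ?_ ?_
    · exact ((Real.continuous_sqrt.tendsto _).comp hc).const_mul _
    · exact (he1.add he2).const_mul _
  have hfin := ge_of_tendsto' hlim hn
  have e : ∫ z, ‖z.2 - z.1‖ ^ 2 ∂π = ∫ z, ‖z.1 - z.2‖ ^ 2 ∂π := by
    refine integral_congr_ae (Eventually.of_forall fun z => ?_)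
    simp only
    rw [norm_sub_rev]
  rw [e] at hfin
  simpa only [Nat.ofNat_nonneg, Real.sqrt_mul, tsub_le_iff_right, ge_iff_le, add_zero, mul_zero] using hfin


/-- The main inequality with an explicit constant. -/
theorem main_explicit (hK : IsCompact K) (hKc : Convex ℝ K) (hKi : (interior K).Nonempty)
    {R M : ℝ} (hR : 0 < R) (hM : 0 ≤ M) (hKR : K ⊆ closedBall 0 R)
    {σ : E d → ℝ} (hσ : GoodDensity K σ) {π : Measure (E d × E d)}
    (hπ : IsProbabilityMeasure π) (hπM : π (closedBall 0 M ×ˢ closedBall 0 M)ᶜ = 0) :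
    (dualVal R M (src K σ) (π.map Prod.snd) - dualVal R M (src K σ) (π.map Prod.fst))
        - (dualVal R M (unif K) (π.map Prod.snd) - dualVal R M (unif K) (π.map Prod.fst))
      ≤ (41 * R) * √(∫ x, (σ x - 1) ^ 2 ∂(unif K)) * √(∫ z, ‖z.1 - z.2‖ ^ 2 ∂π) := by
  have h := main_ineq_const hK hKi hR.le hM hKR
    (fun _ _ _ lam _ hac hlK y hy m hm hsum =>
      exists_weights hK lam hac hlK y hy m (fun k => (hm k).le) hsum)
    (C := 400 * R ^ 2) (by positivity)
    (fun ι _ y hy ψ ψ' hpos h1 h2 => key_ineq hR hK hKc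
      (fun x hx => mem_closedBall_zero_iff.1 (hKR hx)) hy ψ ψ' _ _ (fun _ => rfl) (fun _ => rfl)
      hpos h1 h2) hσ hπ hπM
  refine h.trans ?_
  have h1 : √(4 * (400 * R ^ 2 + R ^ 2)) ≤ 41 * R := by
    rw [Real.sqrt_le_left (by positivity)]
    nlinarith only [hR, sq_nonneg R]
  gcongr

end Vale.Agent.P074.H20
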