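import Vale.Agent.P074.H20.Segment

open MeasureTheory Set Metric
open scoped ENNReal NNReal RealInnerProductSpace

namespace Vale.Agent.P074.H20

variable {d : ℕ}

/-- The Fenchel gap of a potential `χ` along a map `T`. -/
noncomputable def gap (M : ℝ) (χ : E d → ℝ) (T : E d → E d) (x : E d) : ℝ :=
  conj M χ x + χ (T x) - ⟪x, T x⟫

theorem gap_nonneg {M : ℝ} {χ : E d → ℝ} (hχ : Continuous χ) {T : E d → E d} {x : E d}
    (hx : T x ∈ closedBall (0 : E d) M) : 0 ≤ gap M χ T x := by
  have := le_conj hχ x hx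
  unfold gap
  linarith only [this]

/-- Comparison of two potentials at two points. -/
theorem two_point {M : ℝ} {χ ψ : E d → ℝ} (hχ : Continuous χ) (hψ : Continuous ψ)
    {T : E d → E d} {x z : E d}
    (hx : T x ∈ closedBall (0 : E d) M) (hz : T z ∈ closedBall (0 : E d) M)
    (ex : conj M ψ x + ψ (T x) = ⟪x, T x⟫) (ez : conj M ψ z + ψ (T z) = ⟪z, T z⟫) :
    |(conj M χ z - conj M ψ z) - (conj M χ x - conj M ψ x)| ≤
      ⟪z - x, T z - T x⟫ + (gap M χ T x + gap M χ T z) := by
  have h1 := le_conj hχ z hx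
  have h2 := le_conj hχ x hz
  have h3 := le_conj hψ z hx
  have h4 := le_conj hψ x hz
  have g1 := gap_nonneg hχ hx
  have g2 := gap_nonneg hχ hz
  have e1 : ⟪z - x, T z - T x⟫ = ⟪z, T z⟫ - ⟪z, T x⟫ - ⟪x, T z⟫ + ⟪x, T x⟫ := by
    rw [inner_sub_left, inner_sub_right, inner_sub_right]
    ring
  rw [e1, abs_le]
  unfold gap at g1 g2 ⊢
  constructor <;> linarith only [h1, h2, h3, h4, g1, g2, ex, ez]

/-- Telescoping along a segment. -/
theorem segment_bound {M : ℝ} {χ ψ : E d → ℝ} (hχ : Continuous χ) (hψ : Continuous ψ)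
    {T : E d → E d} {x y : E d} {n : ℕ} (hn : 0 < n)
    (hT : ∀ k ≤ n, T ((1 - (k : ℝ) / n) • x + ((k : ℝ) / n) • y) ∈ closedBall (0 : E d) M)
    (he : ∀ k ≤ n, conj M ψ ((1 - (k : ℝ) / n) • x + ((k : ℝ) / n) • y) +
      ψ (T ((1 - (k : ℝ) / n) • x + ((k : ℝ) / n) • y)) =
      ⟪(1 - (k : ℝ) / n) • x + ((k : ℝ) / n) • y,
        T ((1 - (k : ℝ) / n) • x + ((k : ℝ) / n) • y)⟫) :
    |(conj M χ y - conj M ψ y) - (conj M χ x - conj M ψ x)| ≤
      (1 / n) * ⟪y - x, T y - T x⟫ +
        2 * ∑ k ∈ Finset.range (n + 1), gap M χ T ((1 - (k : ℝ) / n) • x + ((k : ℝ) / n) • y) := by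
  have hn' : (n : ℝ) ≠ 0 := by positivity
  set z : ℕ → E d := fun k => (1 - (k : ℝ) / n) • x + ((k : ℝ) / n) • y with hz
  have z0 : z 0 = x := by simp [hz]
  have zn : z n = y := by simp [hz, hn']
  have zs : ∀ k, z (k + 1) - z k = (1 / (n : ℝ)) • (y - x) := by
    intro k
    simp only [hz]
    push_cast
    rw [smul_sub]
    have e : ((k : ℝ) + 1) / n = (k : ℝ) / n + 1 / n := by ring
    rw [e]
    module
  set w : E d → ℝ := fun x => conj M χ x - conj M ψ x with hw
  have t1 : w y - w x = ∑ k ∈ Finset.range n, (w (z (k + 1)) - w (z k)) := by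
    rw [Finset.sum_range_sub (fun k => w (z k)), z0, zn]
  have t2 : ⟪y - x, T y - T x⟫ = ∑ k ∈ Finset.range n, ⟪y - x, T (z (k + 1)) - T (z k)⟫ := by
    rw [← inner_sum, Finset.sum_range_sub (fun k => T (z k)), z0, zn]
  have hg0 : ∀ k ≤ n, 0 ≤ gap M χ T (z k) := fun k hk => gap_nonneg hχ (hT k hk)
  change |w y - w x| ≤ (1 / n) * ⟪y - x, T y - T x⟫ +
    2 * ∑ k ∈ Finset.range (n + 1), gap M χ T (z k)
  rw [t1, t2, Finset.mul_sum]
  calc |∑ k ∈ Finset.range n, (w (z (k + 1)) - w (z k))|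
      ≤ ∑ k ∈ Finset.range n, |w (z (k + 1)) - w (z k)| := Finset.abs_sum_le_sum_abs _ _
    _ ≤ ∑ k ∈ Finset.range n, (1 / (n : ℝ) * ⟪y - x, T (z (k + 1)) - T (z k)⟫ +
          (gap M χ T (z k) + gap M χ T (z (k + 1)))) := by
        apply Finset.sum_le_sum
        intro k hk
        have hk' : k < n := Finset.mem_range.1 hk
        have := two_point hχ hψ (hT k hk'.le) (hT (k + 1) hk') (he k hk'.le) (he (k + 1) hk')
        refine this.trans (le_of_eq ?_)
        change ⟪z (k + 1) - z k, T (z (k + 1)) - T (z k)⟫ +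
          (gap M χ T (z k) + gap M χ T (z (k + 1))) = _
        rw [zs, real_inner_smul_left]
    _ = ∑ k ∈ Finset.range n, 1 / (n : ℝ) * ⟪y - x, T (z (k + 1)) - T (z k)⟫ +
          (∑ k ∈ Finset.range n, gap M χ T (z k) +
            ∑ k ∈ Finset.range n, gap M χ T (z (k + 1))) := by
        rw [Finset.sum_add_distrib, Finset.sum_add_distrib]
    _ ≤ _ := by
        have s1 := Finset.sum_range_succ (fun k => gap M χ T (z k)) n
        have s2 := Finset.sum_range_succ' (fun k => gap M χ T (z k)) n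
        have g0 := hg0 0 (Nat.zero_le _)
        have gn := hg0 n le_rfl
        linarith only [s1, s2, g0, gn]

/-- Two nearly optimal potentials of the same map are close up to a constant. -/
theorem pair_bound {K : Set (E d)} (hK : IsCompact K) (hKc : Convex ℝ K)
    (hKi : (interior K).Nonempty) {R M : ℝ} (hR : 0 ≤ R) (hM : 0 ≤ M)
    (hKR : K ⊆ closedBall 0 R) {χ ψ : E d → ℝ} (hχ : Continuous χ) (hψ : Continuous ψ)
    {T : E d → E d} (hT : Measurable T)
    (hTM : ∀ᵐ x ∂(unif K), T x ∈ closedBall (0 : E d) M)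
    (he : ∀ᵐ x ∂(unif K), conj M ψ x + ψ (T x) = ⟪x, T x⟫) {n : ℕ} (hn : 0 < n) :
    ∫⁻ x, ∫⁻ y, ‖(conj M χ y - conj M ψ y) - (conj M χ x - conj M ψ x)‖ₑ ∂(unif K) ∂(unif K) ≤
      ENNReal.ofReal (4 * R * M / n + 2 * (n + 1) * 2 ^ d * ∫ x, gap M χ T x ∂(unif K)) := by
  have hprob := Final.unif_prob hK hKi
  have hcχ := continuous_conj hM hχ
  have hgm : Measurable (gap M χ T) :=
    (hcχ.measurable.add (hχ.measurable.comp hT)).sub (measurable_id.inner hT)
  have hgi : Integrable (gap M χ T) (unif K) :=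
    ((Final.integrable_cont hK hKi hcχ).add (Final.integrable_comp hK hKi hT hTM hχ)).sub
      (Final.integrable_inner hK hKi hT hTM (f := fun x => x) continuous_id)
  have hg0 : 0 ≤ᵐ[unif K] gap M χ T := by
    filter_upwards [hTM] with x hx using gap_nonneg hχ hx
  have hgap : ∫⁻ x, ENNReal.ofReal (gap M χ T x) ∂(unif K) =
      ENNReal.ofReal (∫ x, gap M χ T x ∂(unif K)) :=
    (ofReal_integral_eq_lintegral_ofReal hgi hg0).symm
  have hI0 : 0 ≤ ∫ x, gap M χ T x ∂(unif K) := integral_nonneg_of_ae hg0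
  have hseg : ∀ᵐ x ∂(unif K), ∀ᵐ y ∂(unif K), ∀ k : ℕ, k ≤ n →
      (T ((1 - (k : ℝ) / n) • x + ((k : ℝ) / n) • y) ∈ closedBall (0 : E d) M ∧
      conj M ψ ((1 - (k : ℝ) / n) • x + ((k : ℝ) / n) • y) +
      ψ (T ((1 - (k : ℝ) / n) • x + ((k : ℝ) / n) • y)) =
      ⟪(1 - (k : ℝ) / n) • x + ((k : ℝ) / n) • y,
        T ((1 - (k : ℝ) / n) • x + ((k : ℝ) / n) • y)⟫) := by
    have h1 : ∀ᵐ x ∂(unif K), ∀ k : ℕ, k ≤ n → ∀ᵐ y ∂(unif K),
        (T ((1 - (k : ℝ) / n) • x + ((k : ℝ) / n) • y) ∈ closedBall (0 : E d) M ∧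
        conj M ψ ((1 - (k : ℝ) / n) • x + ((k : ℝ) / n) • y) +
        ψ (T ((1 - (k : ℝ) / n) • x + ((k : ℝ) / n) • y)) =
        ⟪(1 - (k : ℝ) / n) • x + ((k : ℝ) / n) • y,
          T ((1 - (k : ℝ) / n) • x + ((k : ℝ) / n) • y)⟫) := by
      rw [ae_all_iff]
      intro k
      by_cases hk : k ≤ n
      · have ht0 : (0 : ℝ) ≤ (k : ℝ) / n := by positivity
        have ht1 : (k : ℝ) / n ≤ 1 := by
          rw [div_le_one (by positivity)]
          exact_mod_cast hk
        have := ae_segment hK hKc hKi (hTM.and he) ht0 ht1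
        filter_upwards [this] with x hx _ using hx
      · exact ae_of_all _ fun x h => absurd h hk
    filter_upwards [h1] with x hx
    rw [ae_all_iff]
    intro k
    by_cases hk : k ≤ n
    · filter_upwards [hx k hk] with y hy _ using hy
    · exact ae_of_all _ fun x h => absurd h hk
  have hmem := Final.ae_mem_unif hK
  have hmg : ∀ k : ℕ, Measurable fun z : E d × E d => ENNReal.ofReal
      (gap M χ T ((1 - (k : ℝ) / n) • z.1 + ((k : ℝ) / n) • z.2)) := by
    intro k
    exact (hgm.comp (by fun_prop)).ennreal_ofReal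
  have hmg2 : ∀ (x : E d) (k : ℕ), Measurable fun y : E d => ENNReal.ofReal
      (gap M χ T ((1 - (k : ℝ) / n) • x + ((k : ℝ) / n) • y)) := by
    intro x k
    exact (hgm.comp (by fun_prop)).ennreal_ofReal
  calc ∫⁻ x, ∫⁻ y, ‖(conj M χ y - conj M ψ y) - (conj M χ x - conj M ψ x)‖ₑ
        ∂(unif K) ∂(unif K)
      ≤ ∫⁻ x, ∫⁻ y, (ENNReal.ofReal (4 * R * M / n) + 2 * ∑ k ∈ Finset.range (n + 1),
          ENNReal.ofReal (gap M χ T ((1 - (k : ℝ) / n) • x + ((k : ℝ) / n) • y)))
        ∂(unif K) ∂(unif K) := by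
        apply lintegral_mono_ae
        filter_upwards [hseg, hmem, hTM] with x hx hxK hxT
        apply lintegral_mono_ae
        filter_upwards [hx, hmem, hTM] with y hy hyK hyT
        have hb := segment_bound hχ hψ hn (fun k hk => (hy k hk).1) (fun k hk => (hy k hk).2)
        have hin : ⟪y - x, T y - T x⟫ ≤ 4 * R * M := by
          have h1 : ‖y - x‖ ≤ R + R := (norm_sub_le _ _).trans
            (add_le_add (mem_closedBall_zero_iff.1 (hKR hyK)) (mem_closedBall_zero_iff.1 (hKR hxK)))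
          have h2 : ‖T y - T x‖ ≤ M + M := (norm_sub_le _ _).trans
            (add_le_add (mem_closedBall_zero_iff.1 hyT) (mem_closedBall_zero_iff.1 hxT))
          calc ⟪y - x, T y - T x⟫ ≤ ‖y - x‖ * ‖T y - T x‖ := real_inner_le_norm _ _
            _ ≤ (R + R) * (M + M) := mul_le_mul h1 h2 (norm_nonneg _) (by positivity)
            _ = 4 * R * M := by ring
        have hb2 : |(conj M χ y - conj M ψ y) - (conj M χ x - conj M ψ x)| ≤
            4 * R * M / n + 2 * ∑ k ∈ Finset.range (n + 1),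
              gap M χ T ((1 - (k : ℝ) / n) • x + ((k : ℝ) / n) • y) := by
          refine hb.trans ?_
          have : (1 / (n : ℝ)) * ⟪y - x, T y - T x⟫ ≤ 4 * R * M / n := by
            rw [one_div, div_eq_inv_mul]
            exact mul_le_mul_of_nonneg_left hin (by positivity)
          linarith only [this]
        have hgk : ∀ k ∈ Finset.range (n + 1),
            0 ≤ gap M χ T ((1 - (k : ℝ) / n) • x + ((k : ℝ) / n) • y) := fun k hk =>
          gap_nonneg hχ (hy k (Nat.lt_succ_iff.1 (Finset.mem_range.1 hk))).1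
        rw [Real.enorm_eq_ofReal_abs]
        refine (ENNReal.ofReal_le_ofReal hb2).trans (le_of_eq ?_)
        rw [ENNReal.ofReal_add (by positivity)
          (mul_nonneg (by norm_num) (Finset.sum_nonneg hgk)),
          ENNReal.ofReal_mul (by norm_num), ENNReal.ofReal_sum_of_nonneg hgk]
        norm_num
    _ = ENNReal.ofReal (4 * R * M / n) + 2 * ∑ k ∈ Finset.range (n + 1),
          ∫⁻ x, ∫⁻ y, ENNReal.ofReal (gap M χ T ((1 - (k : ℝ) / n) • x + ((k : ℝ) / n) • y))
            ∂(unif K) ∂(unif K) := by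
        have e1 : ∀ x, ∫⁻ y, (ENNReal.ofReal (4 * R * M / n) + 2 * ∑ k ∈ Finset.range (n + 1),
            ENNReal.ofReal (gap M χ T ((1 - (k : ℝ) / n) • x + ((k : ℝ) / n) • y))) ∂(unif K) =
            ENNReal.ofReal (4 * R * M / n) + 2 * ∑ k ∈ Finset.range (n + 1),
              ∫⁻ y, ENNReal.ofReal (gap M χ T ((1 - (k : ℝ) / n) • x + ((k : ℝ) / n) • y))
                ∂(unif K) := by
          intro x
          rw [lintegral_add_left measurable_const, lintegral_const, measure_univ, mul_one,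
            lintegral_const_mul _ (Finset.measurable_sum _ fun k _ => hmg2 x k),
            lintegral_finsetSum _ fun k _ => hmg2 x k]
        simp_rw [e1]
        rw [lintegral_add_left measurable_const, lintegral_const, measure_univ, mul_one,
          lintegral_const_mul _ (Finset.measurable_sum _ fun k _ =>
            (hmg k).lintegral_prod_right'),
          lintegral_finsetSum _ fun k _ => (hmg k).lintegral_prod_right']
    _ ≤ ENNReal.ofReal (4 * R * M / n) + 2 * ∑ _k ∈ Finset.range (n + 1),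
          (2 ^ d * ENNReal.ofReal (∫ x, gap M χ T x ∂(unif K))) := by
        gcongr with k hk
        rw [← hgap]
        have hk' : k ≤ n := Nat.lt_succ_iff.1 (Finset.mem_range.1 hk)
        have ht1 : (k : ℝ) / n ≤ 1 := by
          rw [div_le_one (by positivity)]
          exact_mod_cast hk'
        exact lint_segment hK hKc hKi hgm.ennreal_ofReal (by positivity) ht1
    _ = _ := by
        rw [Finset.sum_const, Finset.card_range, nsmul_eq_mul,
          ENNReal.ofReal_add (by positivity) (by positivity)]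
        congr 1
        rw [ENNReal.ofReal_mul (by positivity), ENNReal.ofReal_mul (by positivity),
          ENNReal.ofReal_mul (by norm_num), ENNReal.ofReal_pow (by norm_num),
          ENNReal.ofReal_add (by positivity) (by norm_num)]
        rw [ENNReal.ofReal_natCast]
        push_cast
        norm_num
        ring

/-- Pairing with a function of mean zero. -/
theorem pairing {K : Set (E d)} (hK : IsCompact K)
    (hKi : (interior K).Nonempty) {w f : E d → ℝ} (hw : Continuous w) (hf : Measurable f)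
    {B : ℝ} (hB : ∀ x, |f x| ≤ B) (hf0 : ∫ x, f x ∂(unif K) = 0) :
    ‖∫ x, w x * f x ∂(unif K)‖ₑ ≤
      ENNReal.ofReal B * ∫⁻ x, ∫⁻ y, ‖w y - w x‖ₑ ∂(unif K) ∂(unif K) := by
  have hprob := Final.unif_prob hK hKi
  have hwi := Final.integrable_cont hK hKi hw
  set m := ∫ y, w y ∂(unif K) with hm
  have e1 : ∫ x, w x * f x ∂(unif K) = ∫ x, (w x - m) * f x ∂(unif K) := by
    have i1 := Final.integrable_mul_bdd hwi hf hB
    have i2 : Integrable (fun x => m * f x) (unif K) :=
      Final.integrable_mul_bdd (integrable_const m) hf hB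
    have : ∫ x, (w x - m) * f x ∂(unif K) = ∫ x, (w x * f x - m * f x) ∂(unif K) := by
      congr 1; ext x; ring
    rw [this, integral_sub i1 i2, integral_const_mul, hf0]
    ring
  rw [e1]
  refine (enorm_integral_le_lintegral_enorm _).trans ?_
  have hmw : Measurable fun z : E d × E d => ‖w z.2 - w z.1‖ₑ := by
    have : Continuous fun z : E d × E d => w z.2 - w z.1 := by fun_prop
    exact this.measurable.enorm
  rw [← lintegral_const_mul _ hmw.lintegral_prod_right']
  apply lintegral_mono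
  intro x
  have h1 : ‖w x - m‖ₑ ≤ ∫⁻ y, ‖w y - w x‖ₑ ∂(unif K) := by
    have e2 : m - w x = ∫ y, (w y - w x) ∂(unif K) := by
      rw [integral_sub hwi (integrable_const _), integral_const, probReal_univ, one_smul]
    rw [← enorm_neg, neg_sub, e2]
    exact enorm_integral_le_lintegral_enorm _
  have h2 : ‖f x‖ₑ ≤ ENNReal.ofReal B := by
    rw [Real.enorm_eq_ofReal_abs]
    exact ENNReal.ofReal_le_ofReal (hB x)
  show ‖(w x - m) * f x‖ₑ ≤ ENNReal.ofReal B * ∫⁻ y, ‖w y - w x‖ₑ ∂(unif K)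
  rw [enorm_mul, mul_comm]
  exact mul_le_mul' h2 h1

end Vale.Agent.P074.H20
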