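import Vale.Agent.P074.H20.Deriv

open MeasureTheory Set Metric
open scoped ENNReal NNReal RealInnerProductSpace

namespace Vale.Agent.P074.H20

variable {d : ℕ}

/-- The error terms can be made small. -/
theorem small_error {A B : ℝ} (hA : 0 ≤ A) (hB : 0 ≤ B) {δ : ℝ} (hδ : 0 < δ) :
    ∃ (n : ℕ) (ε : ℝ), 0 < n ∧ 0 < ε ∧ ε ≤ 1 ∧
      1 / 2 * (4 * A / n + 2 * (n + 1) * B * (ε * (2 * A))) ≤ δ := by
  obtain ⟨n, hn⟩ := exists_nat_gt (4 * A / δ + 1)
  have hn0 : (0 : ℝ) < n := lt_of_le_of_lt (by positivity) hn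
  have hn' : 0 < n := by exact_mod_cast hn0
  set Q : ℝ := 2 * (n + 1) * B * (2 * A) + 1 with hQ
  have hQ0 : 0 < Q := by positivity
  refine ⟨n, min 1 (δ / Q), hn', lt_min one_pos (by positivity), min_le_left _ _, ?_⟩
  have h1 : 4 * A / n ≤ δ := by
    rw [div_le_iff₀ hn0]
    have h2 : 4 * A / δ < n := lt_trans (by linarith) hn
    rw [div_lt_iff₀ hδ] at h2
    linarith
  have h3 : 2 * (n + 1) * B * (min 1 (δ / Q) * (2 * A)) ≤ δ := by
    have h4 : min 1 (δ / Q) ≤ δ / Q := min_le_right _ _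
    calc 2 * ((n : ℝ) + 1) * B * (min 1 (δ / Q) * (2 * A)) =
        (2 * (n + 1) * B * (2 * A)) * min 1 (δ / Q) := by ring
      _ ≤ (2 * (n + 1) * B * (2 * A)) * (δ / Q) := by
        apply mul_le_mul_of_nonneg_left h4 (by positivity)
      _ ≤ Q * (δ / Q) := by
        apply mul_le_mul_of_nonneg_right _ (by positivity)
        rw [hQ]; linarith
      _ = δ := by field_simp
  linarith

/-- The differentiated main inequality. -/
theorem linear_ineq {K : Set (E d)} (hK : IsCompact K) (hKc : Convex ℝ K)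
    (hKi : (interior K).Nonempty) {R M : ℝ} (hR : 0 ≤ R) (hM : 0 ≤ M)
    (hKR : K ⊆ closedBall 0 R) {C W : ℝ}
    {T₀ T₁ : E d → E d} (hT₀ : Measurable T₀) (hT₁ : Measurable T₁)
    (hT₀M : ∀ᵐ x ∂(unif K), T₀ x ∈ closedBall (0 : E d) M)
    (hT₁M : ∀ᵐ x ∂(unif K), T₁ x ∈ closedBall (0 : E d) M)
    {ψ₀ ψ₁ : E d → ℝ} (hψ₀ : LipschitzWith R.toNNReal ψ₀) (hψ₁ : LipschitzWith R.toNNReal ψ₁)
    (he₀ : ∀ᵐ x ∂(unif K), conj M ψ₀ x + ψ₀ (T₀ x) = ⟪x, T₀ x⟫)
    (he₁ : ∀ᵐ x ∂(unif K), conj M ψ₁ x + ψ₁ (T₁ x) = ⟪x, T₁ x⟫)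
    (hmain : ∀ σ : E d → ℝ, GoodDensity K σ →
      (dualVal R M (src K σ) ((unif K).map T₁) - dualVal R M (src K σ) ((unif K).map T₀))
        - (dualVal R M (unif K) ((unif K).map T₁) - dualVal R M (unif K) ((unif K).map T₀))
      ≤ C * √(∫ x, (σ x - 1) ^ 2 ∂(unif K)) * W)
    {f : E d → ℝ} (hf : Measurable f) (hB : ∀ x, |f x| ≤ 1 / 2)
    (hf0 : ∫ x, f x ∂(unif K) = 0) :
    (∫ x, conj M ψ₁ x * f x ∂(unif K)) - (∫ x, conj M ψ₀ x * f x ∂(unif K)) ≤
      C * √(∫ x, f x ^ 2 ∂(unif K)) * W := by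
  apply le_of_forall_pos_le_add
  intro δ hδ
  obtain ⟨n, ε, hn, hε0, hε1, herr⟩ := small_error (A := R * M) (B := 2 ^ d)
    (mul_nonneg hR hM) (by positivity) hδ
  have h1 := deriv_upper hK hKi hR hM hKR hT₀ hT₀M hψ₀ he₀ hf hB hf0 hε0.le hε1
  have h2 := deriv_lower hK hKc hKi hR hM hKR hT₁ hT₁M hψ₁ he₁ hf hB hf0 hε0.le hε1 hn
  have h3 := hmain _ (goodDensity hK hKi hf hB hf0 hε0.le hε1)
  have h4 : √(∫ x, ((1 + ε * f x) - 1) ^ 2 ∂(unif K)) = ε * √(∫ x, f x ^ 2 ∂(unif K)) := by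
    have : ∀ x, ((1 + ε * f x) - 1) ^ 2 = ε ^ 2 * f x ^ 2 := fun x => by ring
    simp_rw [this]
    rw [integral_const_mul, Real.sqrt_mul (sq_nonneg _), Real.sqrt_sq hε0.le]
  rw [h4] at h3
  have h5 : ε * (((∫ x, conj M ψ₁ x * f x ∂(unif K)) -
        1 / 2 * (4 * R * M / n + 2 * (n + 1) * 2 ^ d * (ε * (2 * R * M)))) -
        ∫ x, conj M ψ₀ x * f x ∂(unif K)) ≤ ε * (C * √(∫ x, f x ^ 2 ∂(unif K)) * W) := by
    linarith only [h1, h2, h3]
  have h6 := le_of_mul_le_mul_left h5 hε0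
  have h7 : 1 / 2 * (4 * R * M / n + 2 * (n + 1) * 2 ^ d * (ε * (2 * R * M))) ≤ δ := by
    refine le_trans (le_of_eq ?_) herr
    ring
  linarith only [h6, h7]

/-- Lipschitz stability of the potentials along couplings. -/
theorem pot_stab {K : Set (E d)} (hK : IsCompact K) (hKc : Convex ℝ K)
    (hKi : (interior K).Nonempty) {R M : ℝ} (hR : 0 ≤ R) (hM : 0 ≤ M)
    (hKR : K ⊆ closedBall 0 R) {C W : ℝ}
    {T₀ T₁ : E d → E d} (hT₀ : Measurable T₀) (hT₁ : Measurable T₁)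
    (hT₀M : ∀ᵐ x ∂(unif K), T₀ x ∈ closedBall (0 : E d) M)
    (hT₁M : ∀ᵐ x ∂(unif K), T₁ x ∈ closedBall (0 : E d) M)
    {ψ₀ ψ₁ : E d → ℝ} (hψ₀ : LipschitzWith R.toNNReal ψ₀) (hψ₁ : LipschitzWith R.toNNReal ψ₁)
    (he₀ : ∀ᵐ x ∂(unif K), conj M ψ₀ x + ψ₀ (T₀ x) = ⟪x, T₀ x⟫)
    (he₁ : ∀ᵐ x ∂(unif K), conj M ψ₁ x + ψ₁ (T₁ x) = ⟪x, T₁ x⟫)
    (hmain : ∀ σ : E d → ℝ, GoodDensity K σ →
      (dualVal R M (src K σ) ((unif K).map T₁) - dualVal R M (src K σ) ((unif K).map T₀))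
        - (dualVal R M (unif K) ((unif K).map T₁) - dualVal R M (unif K) ((unif K).map T₀))
      ≤ C * √(∫ x, (σ x - 1) ^ 2 ∂(unif K)) * W) :
    ∫ x, (conj M ψ₁ x - conj M ψ₀ x -
      ∫ y, (conj M ψ₁ y - conj M ψ₀ y) ∂(unif K)) ^ 2 ∂(unif K) ≤ (C * W) ^ 2 := by
  have hprob := Final.unif_prob hK hKi
  have hc₀ := continuous_conj hM hψ₀.continuous
  have hc₁ := continuous_conj hM hψ₁.continuous
  set w : E d → ℝ := fun x => conj M ψ₁ x - conj M ψ₀ x with hw
  have hwc : Continuous w := hc₁.sub hc₀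
  have hwi := Final.integrable_cont hK hKi hwc
  set m := ∫ y, w y ∂(unif K) with hm
  change ∫ x, (w x - m) ^ 2 ∂(unif K) ≤ (C * W) ^ 2
  obtain ⟨x0, hx0⟩ := hKi
  have hKi' : (interior K).Nonempty := ⟨x0, hx0⟩
  have hbd : ∀ x ∈ K, |w x - m| ≤ 4 * R * M := by
    intro x hx
    have e : w x - m = ∫ y, (w x - w y) ∂(unif K) := by
      rw [integral_sub (integrable_const _) hwi, integral_const, probReal_univ, one_smul]
    rw [e]
    have h1 : ∀ᵐ y ∂(unif K), ‖w x - w y‖ ≤ 4 * R * M := by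
      filter_upwards [Final.ae_mem_unif hK] with y hy
      have a1 := Final.conj_le_add hM hψ₁.continuous x y
      have a2 := Final.conj_le_add hM hψ₁.continuous y x
      have a3 := Final.conj_le_add hM hψ₀.continuous x y
      have a4 := Final.conj_le_add hM hψ₀.continuous y x
      rw [norm_sub_rev y x] at a2 a4
      have a5 : ‖x - y‖ ≤ R + R := (norm_sub_le _ _).trans
        (add_le_add (mem_closedBall_zero_iff.1 (hKR hx)) (mem_closedBall_zero_iff.1 (hKR hy)))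
      have a6 : M * ‖x - y‖ ≤ M * (R + R) := mul_le_mul_of_nonneg_left a5 hM
      simp only [hw]
      rw [Real.norm_eq_abs, abs_le]
      constructor <;> linarith only [a1, a2, a3, a4, a6]
    have h2 := norm_integral_le_of_norm_le_const h1
    rwa [probReal_univ, mul_one, Real.norm_eq_abs] at h2
  set s : ℝ := 1 / (8 * R * M + 1) with hs
  have hs0 : 0 < s := by positivity
  have hs1 : s * (4 * R * M) ≤ 1 / 2 := by
    rw [hs, div_mul_eq_mul_div, one_mul, div_le_div_iff₀ (by positivity) (by norm_num)]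
    linarith only []
  set f : E d → ℝ := fun x => s * K.indicator (fun x => w x - m) x with hf
  have hfm : Measurable f :=
    ((hwc.measurable.sub_const m).indicator hK.measurableSet).const_mul s
  have hfB : ∀ x, |f x| ≤ 1 / 2 := by
    intro x
    simp only [hf]
    by_cases hx : x ∈ K
    · rw [indicator_of_mem hx, abs_mul, abs_of_pos hs0]
      exact (mul_le_mul_of_nonneg_left (hbd x hx) hs0.le).trans hs1
    · rw [indicator_of_notMem hx, mul_zero, abs_zero]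
      norm_num
  have hfae : ∀ᵐ x ∂(unif K), f x = s * (w x - m) := by
    filter_upwards [Final.ae_mem_unif hK] with x hx
    simp only [hf]
    rw [indicator_of_mem hx]
  have hf0 : ∫ x, f x ∂(unif K) = 0 := by
    rw [integral_congr_ae hfae, integral_const_mul, integral_sub hwi (integrable_const _),
      integral_const, probReal_univ, one_smul]
    simp only [← hm, sub_self, mul_zero]
  have h1 := linear_ineq hK hKc hKi' hR hM hKR hT₀ hT₁ hT₀M hT₁M hψ₀ hψ₁ he₀ he₁ hmain hfm hfB hf0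
  set V := ∫ x, (w x - m) ^ 2 ∂(unif K) with hV
  have hV0 : 0 ≤ V := integral_nonneg fun x => sq_nonneg _
  have e1 : ∫ x, f x ^ 2 ∂(unif K) = s ^ 2 * V := by
    rw [hV, ← integral_const_mul]
    apply integral_congr_ae
    filter_upwards [hfae] with x hx
    rw [hx]; ring
  have e2 : (∫ x, conj M ψ₁ x * f x ∂(unif K)) - (∫ x, conj M ψ₀ x * f x ∂(unif K)) = s * V := by
    have i1 := Final.integrable_mul_bdd (Final.integrable_cont hK hKi' hc₁) hfm hfB
    have i2 := Final.integrable_mul_bdd (Final.integrable_cont hK hKi' hc₀) hfm hfB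
    have i3 : Integrable (fun x => (1 : ℝ) * f x) (unif K) :=
      Final.integrable_mul_bdd (integrable_const 1) hfm hfB
    rw [← integral_sub i1 i2, hV, ← integral_const_mul]
    have e3 : ∫ x, (conj M ψ₁ x * f x - conj M ψ₀ x * f x) ∂(unif K) =
        ∫ x, ((conj M ψ₁ x * f x - conj M ψ₀ x * f x) - m * (1 * f x)) ∂(unif K) := by
      have i12 : Integrable (fun x => conj M ψ₁ x * f x - conj M ψ₀ x * f x) (unif K) :=
        i1.sub i2
      rw [integral_sub i12 (i3.const_mul m), integral_const_mul]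
      simp only [one_mul, hf0, mul_zero, sub_zero]
    rw [e3]
    apply integral_congr_ae
    filter_upwards [hfae] with x hx
    rw [hx]
    simp only [hw]
    ring
  rw [e1, e2, Real.sqrt_mul (sq_nonneg _), Real.sqrt_sq hs0.le] at h1
  have h2 : s * V ≤ s * (C * √V * W) := by linarith only [h1]
  have h3 : V ≤ C * √V * W := le_of_mul_le_mul_left h2 hs0
  have h4 := Real.sq_sqrt hV0
  have h5 := Real.sqrt_nonneg V
  rcases h5.eq_or_lt with h6 | h6
  · rw [← h6] at h4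
    have : V = 0 := by rw [← h4]; norm_num
    rw [this]
    positivity
  · have h7 : √V ≤ C * W := by
      have : √V * √V ≤ √V * (C * W) := by nlinarith only [h3, h4]
      exact le_of_mul_le_mul_left this h6
    calc V = √V ^ 2 := h4.symm
      _ ≤ (C * W) ^ 2 := by gcongr

end Vale.Agent.P074.H20
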