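import Vale.Agent.P074.Bdl.B1

open MeasureTheory Set Metric
open scoped ENNReal NNReal RealInnerProductSpace

namespace Vale.Agent.P074.H20

variable {d : ℕ}

/-- Contraction towards a point of a convex set: change of variables. -/
theorem lint_homothety {K : Set (E d)} (hK : MeasurableSet K) (hKc : Convex ℝ K)
    {F : E d → ℝ≥0∞} (hF : Measurable F) {s : ℝ} (hs : 1 / 2 ≤ s) (hs1 : s ≤ 1)
    {y : E d} (hy : y ∈ K) :
    ∫⁻ x in K, F (s • x + (1 - s) • y) ≤ 2 ^ d * ∫⁻ x in K, F x := by
  have hs0 : 0 < s := by linarith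
  rw [← lintegral_indicator hK, ← lintegral_indicator hK]
  have h1 : ∀ x, K.indicator (fun x => F (s • x + (1 - s) • y)) x ≤
      K.indicator F (s • x + (1 - s) • y) := by
    intro x
    by_cases hx : x ∈ K
    · rw [indicator_of_mem hx, indicator_of_mem
        (hKc hx hy hs0.le (by linarith) (by ring))]
    · rw [indicator_of_notMem hx]; exact zero_le
  refine (lintegral_mono h1).trans ?_
  have h2 : ∫⁻ x, K.indicator F (s • x + (1 - s) • y) =
      ENNReal.ofReal |(s ^ Module.finrank ℝ (E d))⁻¹| * ∫⁻ x, K.indicator F x := by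
    have hm : Measurable fun x : E d => K.indicator F (x + (1 - s) • y) :=
      (hF.indicator hK).comp (measurable_add_const _)
    have h3 := Measure.map_addHaar_smul (volume : Measure (E d)) hs0.ne'
    have h4 : ∫⁻ x, K.indicator F (s • x + (1 - s) • y) =
        ∫⁻ x, K.indicator F (x + (1 - s) • y) ∂(volume.map (s • · : E d → E d)) := by
      rw [lintegral_map hm (measurable_const_smul s)]
    rw [h4, h3, lintegral_smul_measure,
      lintegral_add_right_eq_self (fun x => K.indicator F x), smul_eq_mul]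
  rw [h2]
  gcongr
  rw [finrank_euclideanSpace, Fintype.card_fin, abs_of_pos (by positivity)]
  have h5 : (s ^ d)⁻¹ ≤ (2 : ℝ) ^ d := by
    rw [← inv_pow]
    apply pow_le_pow_left₀ (by positivity)
    rw [inv_le_comm₀ hs0 (by norm_num)]
    linarith
  calc ENNReal.ofReal (s ^ d)⁻¹ ≤ ENNReal.ofReal ((2 : ℝ) ^ d) := ENNReal.ofReal_le_ofReal h5
    _ = 2 ^ d := by
      rw [ENNReal.ofReal_pow (by norm_num)]
      norm_num

theorem lint_homothety_unif {K : Set (E d)} (hK : MeasurableSet K) (hKc : Convex ℝ K)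
    {F : E d → ℝ≥0∞} (hF : Measurable F) {s : ℝ} (hs : 1 / 2 ≤ s) (hs1 : s ≤ 1)
    {y : E d} (hy : y ∈ K) :
    ∫⁻ x, F (s • x + (1 - s) • y) ∂(unif K) ≤ 2 ^ d * ∫⁻ x, F x ∂(unif K) := by
  unfold unif ProbabilityTheory.cond
  rw [lintegral_smul_measure, lintegral_smul_measure, smul_eq_mul, smul_eq_mul]
  have h := lint_homothety hK hKc hF hs hs1 hy
  calc (volume K)⁻¹ * ∫⁻ x in K, F (s • x + (1 - s) • y) ≤
      (volume K)⁻¹ * (2 ^ d * ∫⁻ x in K, F x) := by gcongr
    _ = _ := by ring

/-- The law of an intermediate point of two independent points of a convex set has density at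
most `2 ^ d` with respect to the uniform measure. -/
theorem lint_segment {K : Set (E d)} (hK : IsCompact K) (hKc : Convex ℝ K)
    (hKi : (interior K).Nonempty)
    {F : E d → ℝ≥0∞} (hF : Measurable F) {t : ℝ} (ht0 : 0 ≤ t) (ht1 : t ≤ 1) :
    ∫⁻ x, ∫⁻ y, F ((1 - t) • x + t • y) ∂(unif K) ∂(unif K) ≤ 2 ^ d * ∫⁻ x, F x ∂(unif K) := by
  have hprob := Final.unif_prob hK hKi
  have hKm := hK.measurableSet
  have hmem := Final.ae_mem_unif hK
  rcases le_total t (1 / 2) with ht | ht
  · rw [lintegral_lintegral_swap (by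
      apply Measurable.aemeasurable
      exact hF.comp (by fun_prop))]
    calc ∫⁻ y, ∫⁻ x, F ((1 - t) • x + t • y) ∂(unif K) ∂(unif K)
        ≤ ∫⁻ _y, 2 ^ d * ∫⁻ x, F x ∂(unif K) ∂(unif K) := by
          apply lintegral_mono_ae
          filter_upwards [hmem] with y hy
          have := lint_homothety_unif hKm hKc hF (s := 1 - t) (by linarith) (by linarith) hy
          simpa only [sub_sub_cancel] using this
      _ = _ := by rw [lintegral_const, measure_univ, mul_one]
  · calc ∫⁻ x, ∫⁻ y, F ((1 - t) • x + t • y) ∂(unif K) ∂(unif K)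
        ≤ ∫⁻ _x, 2 ^ d * ∫⁻ y, F y ∂(unif K) ∂(unif K) := by
          apply lintegral_mono_ae
          filter_upwards [hmem] with x hx
          have := lint_homothety_unif hKm hKc hF (s := t) (by linarith) ht1 hx
          simpa only [add_comm] using this
      _ = _ := by rw [lintegral_const, measure_univ, mul_one]

/-- An almost everywhere property holds at intermediate points of almost every segment. -/
theorem ae_segment {K : Set (E d)} (hK : IsCompact K) (hKc : Convex ℝ K)
    (hKi : (interior K).Nonempty) {P : E d → Prop} (hP : ∀ᵐ x ∂(unif K), P x)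
    {t : ℝ} (ht0 : 0 ≤ t) (ht1 : t ≤ 1) :
    ∀ᵐ x ∂(unif K), ∀ᵐ y ∂(unif K), P ((1 - t) • x + t • y) := by
  have hprob := Final.unif_prob hK hKi
  obtain ⟨N, hPN, hNm, hN0⟩ := exists_measurable_superset_of_null (ae_iff.1 hP)
  have h := lint_segment hK hKc hKi (F := N.indicator 1) (measurable_one.indicator hNm)
    ht0 ht1
  rw [lintegral_indicator_one hNm, hN0, mul_zero, nonpos_iff_eq_zero] at h
  have hm : Measurable fun z : E d × E d => N.indicator (1 : E d → ℝ≥0∞)
      ((1 - t) • z.1 + t • z.2) :=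
    (measurable_one.indicator hNm).comp (by fun_prop)
  rw [lintegral_eq_zero_iff hm.lintegral_prod_right'] at h
  filter_upwards [h] with x hx
  have hx' : ∫⁻ y, N.indicator (1 : E d → ℝ≥0∞) ((1 - t) • x + t • y) ∂(unif K) = 0 := hx
  have hm2 : Measurable fun y : E d => N.indicator (1 : E d → ℝ≥0∞)
      ((1 - t) • x + t • y) :=
    (measurable_one.indicator hNm).comp (by fun_prop)
  rw [lintegral_eq_zero_iff hm2] at hx'
  filter_upwards [hx'] with y hy
  by_contra hcon
  have hmem : (1 - t) • x + t • y ∈ N := hPN hcon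
  have : N.indicator (1 : E d → ℝ≥0∞) ((1 - t) • x + t • y) = 0 := hy
  rw [indicator_of_mem hmem] at this
  exact one_ne_zero this

end Vale.Agent.P074.H20
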